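import Vale.Agent.P205F.Crest.Bounds
import Vale.Agent.P205F.Patch.Stmt

/-!
# P205, the crest: boxes in which the kernel of `ν` and the levels of `h` are the coordinate lines
-/

namespace Vale.Agent.P205F.Crest

open scoped Manifold ContDiff RealInnerProductSpace Topology
open Set Filter Function

/-- A shrink of the plane acting on each coordinate separately. -/
lemma exists_shrink_sep {V : Set E2} {x : E2} (hV : V ∈ 𝓝 x) :
    ∃ σ : Chart E2, range σ.toFun ⊆ V ∧ σ.toFun x = x ∧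
      ∀ (z z' : E2) i, z i = z' i → σ.toFun z i = σ.toFun z' i := by
  obtain ⟨θ, hθ, hpos, hbd, hid⟩ := exists_squash
  obtain ⟨ε, hε, hball⟩ := Metric.mem_nhds_iff.1 hV
  set r := ε / 20 with hr
  have hr0 : 0 < r := by positivity
  let F : E2 → E2 := fun z => x + r • WithLp.toLp 2 fun i => θ (z i - x i)
  have hFi : ∀ z i, F z i = x i + r * θ (z i - x i) := fun z i => by simp [F]
  have hFd : ContDiff ℝ ∞ F := by
    rw [contDiff_euclidean]
    intro i
    simp_rw [hFi]
    fun_prop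
  have hinj : Injective F := fun z z' hz => by
    ext i
    have h' := congrArg (fun y : E2 => y i) hz
    simp only [hFi] at h'
    exact sub_left_injective
      ((strictMono_of_deriv_pos hpos).injective (mul_left_cancel₀ hr0.ne' (add_left_cancel h')))
  have hd : ∀ z, Injective (fderiv ℝ F z) := by
    intro z
    rw [injective_iff_map_eq_zero]
    intro v hv
    ext i
    let P : E2 →L[ℝ] ℝ := EuclideanSpace.proj i
    have h1 : HasFDerivAt (fun y => P (F y)) (P.comp (fderiv ℝ F z)) z :=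
      P.hasFDerivAt.comp z ((hFd.differentiable infty_ne_zero).differentiableAt.hasFDerivAt)
    have h2 : HasFDerivAt (fun y => P (F y)) ((r * deriv θ (z i - x i)) • P) z := by
      have := (((hθ.differentiable infty_ne_zero).differentiableAt.hasDerivAt
        (x := z i - x i)).comp_hasFDerivAt z (P.hasFDerivAt.sub_const (x i))).const_mul r
          |>.const_add (x i)
      simpa [P, hFi, smul_smul] using this
    have h := congrArg (fun A : E2 →L[ℝ] ℝ => A v) (h1.unique h2)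
    simpa [hv, P, hr0.ne', (hpos _).ne'] using h
  obtain ⟨σ, hσ⟩ := exists_chart_of_injective hFd hinj hd
  refine ⟨σ, ?_, ?_, fun z z' i hi => by simp [hσ, hFi, hi]⟩
  · rw [hσ]
    rintro _ ⟨z, rfl⟩
    apply hball
    rw [Metric.mem_ball, dist_eq_norm]
    have hn : ‖WithLp.toLp 2 fun i => θ (z i - x i)‖ ≤ (12 : ℝ) := by
      rw [EuclideanSpace.norm_eq, Real.sqrt_le_left (by norm_num), Fin.sum_univ_two]
      simp only [Real.norm_eq_abs, sq_abs]
      have hb : ∀ i, θ (z i - x i) ^ 2 ≤ 64 := fun i => by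
        have := sq_le_sq' (abs_le.1 (hbd (z i - x i))).1 (abs_le.1 (hbd (z i - x i))).2
        linarith
      linarith [hb 0, hb 1]
    simp only [F, add_sub_cancel_left, norm_smul, Real.norm_eq_abs, abs_of_pos hr0]
    calc r * _ ≤ r * 12 := mul_le_mul_of_nonneg_left hn hr0.le
      _ < ε := by rw [hr]; linarith
  · rw [hσ]
    ext i
    simp [hFi, hid 0 (by simp)]

lemma pd_eq_zero_of_const {u : E2 → ℝ} (hu : Differentiable ℝ u) (j : Fin 2) (x : E2)
    (h : ∀ t : ℝ, u (x + t • ev j) = u x) : fderiv ℝ u x (ev j) = 0 := by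
  rw [← (hu x).lineDeriv_eq_fderiv, lineDeriv]
  simp only [h, deriv_const']

variable {M : Type*} [TopologicalSpace M] [ChartedSpace E2 M] [T2Space M] [CompactSpace M]
  [IsManifold (𝓡 2) ∞ M]

/-- Around a regular point: a chart in which `ν(∂x) = 0` and `∂y h = 0`. -/
theorem exists_box (g : Metric M) (h : Twisted M) (hfin : h.crit.Finite) {V : Set M} {p : M}
    (hV : IsOpen V) (hp : p ∈ V) (hpc : p ∉ h.crit) :
    ∃ χ : Chart M, p ∈ range χ.toFun ∧ range χ.toFun ⊆ V ∧
      ∀ x, h.nu g χ x 0 = 0 ∧ h.nu g χ x 1 ≠ 0 ∧ h.d χ x 1 = 0 := by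
  obtain ⟨ψ, ⟨z₀, rfl⟩, hψV, hψν⟩ := patchStmt M g h (V ∩ h.critᶜ) p
    (hV.inter hfin.isClosed.isOpen_compl) ⟨hp, hpc⟩ hpc
  have hreg : ∀ z, fderiv ℝ (h.h ψ) z ≠ 0 := fun z e =>
    (hψV ⟨z, rfl⟩).2 ((h.mem_crit_iff ψ z).2 e)
  have hp1 : ∀ z, fderiv ℝ (h.h ψ) z (ev 1) ≠ 0 := fun z e => by
    have h0 := dH_efin_pos g h ψ z (hreg z)
    simp [Twisted.efin, hψν z, e] at h0
  let Γ : E2 → E2 := fun z => WithLp.toLp 2 ![h.h ψ z, z 0]
  have hΓ : ContDiff ℝ ∞ Γ := by
    rw [contDiff_euclidean]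
    intro i
    fin_cases i
    · simpa [Γ] using h.smooth ψ
    · simpa [Γ] using (EuclideanSpace.proj (𝕜 := ℝ) (0 : Fin 2)).contDiff
  have hΓd : ∀ z, Injective (fderiv ℝ Γ z) := fun z => by
    rw [injective_iff_map_eq_zero]
    intro v hv
    have hi : ∀ i, HasFDerivAt (fun y => Γ y i)
        ((EuclideanSpace.proj (𝕜 := ℝ) i).comp (fderiv ℝ Γ z)) z := fun i =>
      (EuclideanSpace.proj (𝕜 := ℝ) i).hasFDerivAt.comp z
        (hΓ.differentiable infty_ne_zero z).hasFDerivAt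
    have e0 : HasFDerivAt (fun y => Γ y 0) (fderiv ℝ (h.h ψ) z) z := by
      simpa [Γ] using ((h.smooth ψ).differentiable infty_ne_zero z).hasFDerivAt
    have e1 : HasFDerivAt (fun y => Γ y 1) (EuclideanSpace.proj (𝕜 := ℝ) (0 : Fin 2) : E2 →L[ℝ] ℝ)
        z := by
      simpa [Γ] using (EuclideanSpace.proj (𝕜 := ℝ) (0 : Fin 2) : E2 →L[ℝ] ℝ).hasFDerivAt (x := z)
    have a0 := congrArg (fun A : E2 →L[ℝ] ℝ => A v) (e0.unique (hi 0))
    have a1 := congrArg (fun A : E2 →L[ℝ] ℝ => A v) (e1.unique (hi 1))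
    simp [hv] at a0 a1
    rw [apply_eq_pd, a1, zero_smul, zero_add, smul_eq_mul] at a0
    ext i
    fin_cases i
    · simpa using a1
    · simpa using (mul_eq_zero.1 a0).resolve_right (hp1 z)
  let A : E2 ≃L[ℝ] E2 :=
    (LinearEquiv.ofInjectiveEndo (fderiv ℝ Γ z₀).toLinearMap (hΓd z₀)).toContinuousLinearEquiv
  have hA : HasFDerivAt Γ (A : E2 →L[ℝ] E2) z₀ :=
    ((hΓ.differentiable infty_ne_zero z₀).hasFDerivAt).congr_fderiv (by ext v; simp [A])
  have hst := hΓ.contDiffAt.hasStrictFDerivAt' hA infty_ne_zero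
  obtain ⟨T, hT, hTinj⟩ : ∃ T ∈ 𝓝 z₀, InjOn Γ T :=
    ⟨_, (hst.toOpenPartialHomeomorph Γ).open_source.mem_nhds
      hst.mem_toOpenPartialHomeomorph_source, by
        simpa using (hst.toOpenPartialHomeomorph Γ).injOn⟩
  obtain ⟨σ, hσ, hσ0⟩ := exists_shrink hT
  have hσd : ContDiff ℝ ∞ σ.toFun := σ.smooth.contDiff
  have hσdinj : ∀ z, Injective (fderiv ℝ σ.toFun z) := fun z u v huv => by
    have := σ.mfderiv_injective z
    rw [mfderiv_eq_fderiv] at this
    exact this huv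
  obtain ⟨G, hG⟩ := exists_chart_of_injective (hΓ.comp hσd)
    (fun z w hzw => σ.injective (hTinj (hσ ⟨z, rfl⟩) (hσ ⟨w, rfl⟩) hzw)) fun z => by
      rw [fderiv_comp z (hΓ.differentiable infty_ne_zero _) (hσd.differentiable infty_ne_zero z)]
      exact (hΓd _).comp (hσdinj z)
  obtain ⟨σ2, hσ2, hσ2x, hsep⟩ := exists_shrink_sep (G.range_mem_nhds z₀)
  let Q : E2 → E2 := fun z => σ.toFun ((G.pull σ2 hσ2).toFun z)
  have hQd : ContDiff ℝ ∞ Q := hσd.comp (G.pull σ2 hσ2).smooth.contDiff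
  have hΓQ : ∀ z, Γ (Q z) = σ2.toFun z := fun z => by
    have := G.comp_pull_apply σ2 hσ2 z
    rw [hG] at this
    exact this
  let χ : Chart M := (ψ.comp σ).comp (G.pull σ2 hσ2)
  have hχ : ∀ z, χ.toFun z = ψ.toFun (Q z) := fun z => rfl
  have htr : ψ.trans χ = Q := funext fun z => Chart.trans_eq (hχ z)
  have hrψ : ∀ z, χ.toFun z ∈ range ψ.toFun := fun z => ⟨Q z, (hχ z).symm⟩
  refine ⟨χ, ⟨G.toFun z₀, ?_⟩, fun q hq => ?_, fun x => ?_⟩
  · rw [hχ]
    congr 1
    show σ.toFun (G.inv (σ2.toFun (G.toFun z₀))) = z₀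
    rw [hσ2x, G.left_inv, hσ0.eq_of_nhds, id]
  · obtain ⟨z, rfl⟩ := hq
    exact (hψV ⟨Q z, (hχ z).symm⟩).1
  · have hline : ∀ (i j : Fin 2), i ≠ j → ∀ t : ℝ,
        σ2.toFun (x + t • ev j) i = σ2.toFun x i := fun i j hij t =>
      hsep _ _ i (by simp [ev, hij])
    have h0 : fderiv ℝ (fun z => h.h ψ (Q z)) x (ev 1) = 0 :=
      pd_eq_zero_of_const (((h.smooth ψ).comp hQd).differentiable infty_ne_zero) 1 x fun t => by
        have := hline 0 1 (by simp) t
        rw [← hΓQ, ← hΓQ] at this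
        simpa [Γ] using this
    have h1 : fderiv ℝ Q x (ev 0) 0 = 0 := by
      have hd : HasFDerivAt (fun z => Q z 0)
          ((EuclideanSpace.proj (𝕜 := ℝ) (0 : Fin 2)).comp (fderiv ℝ Q x)) x :=
        (EuclideanSpace.proj (𝕜 := ℝ) (0 : Fin 2)).hasFDerivAt.comp x
          (hQd.differentiable infty_ne_zero x).hasFDerivAt
      have := pd_eq_zero_of_const (u := fun z => Q z 0)
        ((EuclideanSpace.proj (𝕜 := ℝ) (0 : Fin 2)).contDiff.comp hQd |>.differentiable
          infty_ne_zero) 0 x fun t => by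
        have := hline 1 0 (by simp) t
        rw [← hΓQ, ← hΓQ] at this
        simpa [Γ] using this
      rw [hd.fderiv] at this
      simpa using this
    have hν : h.nu g χ x 0 = 0 := by
      have := h.nu_change g ψ χ (hrψ x) (ev 0)
      rw [htr] at this
      simp only [hψν, h1] at this
      simpa [ev] using this
    refine ⟨hν, fun h1' => ?_, ?_⟩
    · have hcr : χ.toFun x ∈ h.crit := (h.mem_crit_iff χ x).2 (nu_ne_zero h g χ x hν h1')
      rw [hχ] at hcr
      exact (hψV ⟨Q x, rfl⟩).2 hcr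
    · show fderiv ℝ (h.h χ) x (ev 1) = 0
      rw [h.fderiv_change ψ χ (hrψ x), htr]
      have := fderiv_comp_plane (F := h.h ψ) (τ := Q) (x := x)
        ((h.smooth ψ).differentiable infty_ne_zero _) (hQd.differentiable infty_ne_zero x)
      rw [this] at h0
      simp only [ContinuousLinearMap.comp_apply] at h0
      rw [h0, mul_zero]

end Vale.Agent.P205F.Crest
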