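import Vale.Agent.P205F.Start.Interfaces

/-!
# P205, the crest: what it needs from the twist modules
-/

namespace Vale.Agent.P205F

open scoped ContDiff

/-- EXPANSION keeping `II(∂x,∂x) ≠ 0`: as `ExpandStmt false`, in coordinates whose `∂x` spans the
kernel of `ν`. -/
def ExpandKeepStmt : Prop :=
  ∀ (f : E2 → R4) (a : E2 → ℝ) (ν : E2 → Fin 2 → ℝ) (U K K' : Set E2),
    ContDiff ℝ ∞ f → IsImm f → ContDiff ℝ ∞ a → HasCompactSupport a →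
    (∀ i, ContDiff ℝ ∞ fun x => ν x i) → IsOpen U → IsCompact K → IsCompact K' →
    tsupport a ⊆ interior K → K ⊆ interior K' → K' ⊆ U → (∀ x ∈ U, GdAt f x) →
    (∀ x ∈ U, ν x 1 ≠ 0) → (∀ x ∈ U, ν x 0 = 0) → (∀ x ∈ U, II f x (ev 0) ≠ 0) →
    ∀ q : ℕ, ∃ e₁ : ℕ, ∀ κ : ℕ, ∃ e₂ : ℕ, ∀ m : ℕ, ∃ (d : ℕ) (C : ℝ) (M₀ : ℕ), ∀ M, M₀ ≤ M →
      ∃ (F : (Fin d → ℝ) → E2 → R4) (δ : (Fin d → ℝ) → E2 → ℝ),
        Fam false F K C e₁ κ e₂ M ∧ ∀ l ∈ Box d,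
          let err : E2 → S3 := fun x =>
            met (F l) x - met f x - a x ^ 2 • sq ![1, 0] - δ l x • sq (ν x)
          ContDiff ℝ ∞ (δ l) ∧ IsImm (F l) ∧
          (∀ x, x ∉ K' → F l x = f x ∧ δ l x = 0) ∧
          (∀ x, ‖F l x - f x‖ ≤ C / M ∧ |δ l x| ≤ C / M) ∧
          (∀ x ∈ K', ∀ n ≤ m,
            ‖iteratedFDeriv ℝ n (F l) x‖ ≤ C * ((M : ℝ) ^ (κ + 2)) ^ n ∧
            ‖iteratedFDeriv ℝ n err x‖ ≤ C * ((M : ℝ) ^ (κ + 2)) ^ n / (M : ℝ) ^ m) ∧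
          (∀ x, x ∉ interior K → ∀ n < q,
            ‖iteratedFDeriv ℝ n (fun z => F l z - f z) x‖ ≤ C / (M : ℝ) ^ (q - n)) ∧
          (∀ x w, nrm f x w = w → ‖w‖ ≤ C * ‖nrm (F l) x w‖) ∧
          ∀ x ∈ K, C⁻¹ ≤ ‖II (F l) x (ev 0)‖

/-- A twist exact modulo `ν²` whose phase direction `∂x` spans the kernel of `ν` and which keeps
`II(∂x,∂x) ≠ 0`. -/
def KeepTwistStmt : Prop :=
  ∀ (f : E2 → R4) (a : E2 → ℝ) (ν : E2 → Fin 2 → ℝ) (U : Set E2), ContDiff ℝ ∞ f → IsImm f →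
    ContDiff ℝ ∞ a → HasCompactSupport a → IsOpen U → tsupport a ⊆ U →
    (∀ i, ContDiff ℝ ∞ fun x => ν x i) → (∀ x ∈ U, ν x 1 ≠ 0) → (∀ x ∈ U, ν x 0 = 0) →
    (∀ x ∈ U, II f x (ev 0) ≠ 0) → (∀ x ∈ U, GdAt f x) →
    ∀ ε : ℝ, 0 < ε → ∃ (f' : E2 → R4) (δ : E2 → ℝ),
      ContDiff ℝ ∞ f' ∧ ContDiff ℝ ∞ δ ∧ IsImm f' ∧
      (∃ K, IsCompact K ∧ K ⊆ U ∧ ∀ x, x ∉ K → f' x = f x) ∧
      HasCompactSupport δ ∧ tsupport δ ⊆ U ∧ (∀ x, |δ x| ≤ ε) ∧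
      (∀ x, met f' x = met f x + a x ^ 2 • sq ![1, 0] + δ x • sq (ν x)) ∧
      (∀ x ∈ U, GdAt f' x) ∧ ∀ x ∈ U, II f' x (ev 0) ≠ 0

end Vale.Agent.P205F
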