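import Vale.Agent.P205F.Crest.Stability
import Vale.Agent.P205F.Crest.Defs

/-!
# P205, the crest: the slack in a box as three squares, and their removal
-/

namespace Vale.Agent.P205F.Crest

open scoped Manifold ContDiff RealInnerProductSpace Topology
open Set Filter Function

variable {M : Type*} [TopologicalSpace M] [ChartedSpace E2 M]

lemma contDiff_mul_sqrt {a σ : E2 → ℝ} (ha : ContDiff ℝ ∞ a) (hσ : ContDiff ℝ ∞ σ)
    (hpos : ∀ x ∈ tsupport a, 0 < σ x) : ContDiff ℝ ∞ fun x => a x * Real.sqrt (σ x) := by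
  refine contDiff_iff_contDiffAt.2 fun x => ?_
  by_cases hx : x ∈ tsupport a
  · exact ha.contDiffAt.mul ((Real.contDiffAt_sqrt (hpos x hx).ne').comp x hσ.contDiffAt)
  · refine (contDiffAt_const (c := (0 : ℝ))).congr_of_eventuallyEq ?_
    filter_upwards [notMem_tsupport_iff_eventuallyEq.1 hx] with y hy
    simp [hy]

variable [IsManifold (𝓡 2) ∞ M] (g : Metric M) (h : Twisted M)

/-- `A² (dx + ε dy)²` in a box is a primitive term with the kernel of `ν` along its first axis. -/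
lemma exists_prim (χ : Chart M) (hν : ∀ x, h.nu g χ x 0 = 0 ∧ h.nu g χ x 1 ≠ 0) (ε : ℝ)
    {A : E2 → ℝ} (hA : ContDiff ℝ ∞ A) (hAc : HasCompactSupport A) :
    ∃ P : Prim M, range P.ψ.toFun ⊆ range χ.toFun ∧
      (∀ x, h.nu g P.ψ x 0 = 0 ∧ h.nu g P.ψ x 1 ≠ 0) ∧
      ∀ (φ : Chart M) x, (φ.toFun x ∉ range χ.toFun → P.val φ x = 0) ∧
        (φ.toFun x ∈ range χ.toFun → ∀ v w, bil (P.val φ x) v w = A (χ.trans φ x) ^ 2 *
          bil (sq ![1, ε]) (fderiv ℝ (χ.trans φ) x v) (fderiv ℝ (χ.trans φ) x w)) := by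
  let S : E2 →L[ℝ] E2 := ContinuousLinearMap.id ℝ E2 -
    (ε • (EuclideanSpace.proj (𝕜 := ℝ) (1 : Fin 2) : E2 →L[ℝ] ℝ)).smulRight (ev 0)
  have hS : ∀ z, S z 0 = z 0 - ε * z 1 ∧ S z 1 = z 1 := fun z => by simp [S, ev]
  have hinj : Injective S := fun z w hzw => by
    have h0 := congrArg (fun v : E2 => v 0) hzw
    have h1 := congrArg (fun v : E2 => v 1) hzw
    simp only [(hS z).1, (hS z).2, (hS w).1, (hS w).2] at h0 h1
    ext i
    fin_cases i
    · rw [h1] at h0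
      simpa using h0
    · simpa using h1
  obtain ⟨σ, hσ⟩ := exists_chart_of_injective S.contDiff hinj fun x => by
    rw [S.fderiv]
    exact hinj
  let L : E2 →L[ℝ] E2 := ContinuousLinearMap.id ℝ E2 +
    (ε • (EuclideanSpace.proj (𝕜 := ℝ) (1 : Fin 2) : E2 →L[ℝ] ℝ)).smulRight (ev 0)
  have hSL : ∀ z, S (L z) = z := fun z => by
    ext i
    fin_cases i <;> simp [S, L, ev]
  have hrange : range (χ.comp σ).toFun = range χ.toFun := by
    refine (χ.range_comp_subset σ).antisymm ?_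
    rintro _ ⟨z, rfl⟩
    exact ⟨L z, by show χ.toFun (σ.toFun (L z)) = _; rw [hσ, hSL]⟩
  refine ⟨⟨χ.comp σ, fun z => A (S z), hA.comp S.contDiff, ?_⟩, hrange.le, fun x => ?_,
    fun φ x => ⟨fun hx => ?_, fun hx v w => ?_⟩⟩
  · refine HasCompactSupport.intro (hAc.image L.continuous) fun z hz =>
      image_eq_zero_of_notMem_tsupport fun hm => hz ⟨S z, hm, ?_⟩
    exact hinj (hSL _)
  · have htr : χ.trans (χ.comp σ) = S := funext fun z => Chart.trans_eq (by rw [← hσ]; rfl)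
    have hx : (χ.comp σ).toFun x ∈ range χ.toFun := χ.range_comp_subset σ ⟨x, rfl⟩
    have h0 := h.nu_change g χ (χ.comp σ) hx (ev 0)
    have h1 := h.nu_change g χ (χ.comp σ) hx (ev 1)
    rw [htr, S.fderiv] at h0 h1
    simp [S, ev, (hν _).1] at h0 h1
    rw [h1]
    exact ⟨h0, (hν _).2⟩
  · rw [Prim.val_eq, Chart.ext_of_notMem _ _ (by rwa [hrange])]
    simp
  · have hx' : φ.toFun x ∈ range (χ.comp σ).toFun := by rwa [hrange]
    have heq : χ.trans φ =ᶠ[𝓝 x] fun z => S ((χ.comp σ).trans φ z) := by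
      filter_upwards [(χ.comp σ).trans_eventually φ hx'] with z hz
      refine Chart.trans_eq ?_
      rw [← hz, ← hσ]
      rfl
    have hd : fderiv ℝ (χ.trans φ) x = S.comp (fderiv ℝ ((χ.comp σ).trans φ) x) := by
      rw [heq.fderiv_eq]
      exact (S.hasFDerivAt.comp x
        (((χ.comp σ).trans_contDiffAt φ hx').differentiableAt infty_ne_zero).hasFDerivAt).fderiv
    rw [Prim.val_eq, bil_smul, bil_sq_dcoord _ _ hx', hd, heq.eq_of_nhds,
      ← (χ.comp σ).trans_right φ hx', Chart.ext_apply]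
    simp [bil_sq, hS]

/-- The slack in a box. -/
theorem exists_split [T2Space M] (χ : Chart M)
    (hbox : ∀ x, h.nu g χ x 0 = 0 ∧ h.nu g χ x 1 ≠ 0 ∧ h.d χ x 1 = 0) {a : E2 → ℝ}
    (ha : ContDiff ℝ ∞ a) (hac : HasCompactSupport a) {R : Chart M → E2 → S3}
    (hRs : ∀ i, ContDiff ℝ ∞ fun x => R χ x i)
    (hR : ∀ (φ : Chart M) x, φ.toFun x ∈ range χ.toFun → ∀ v w, bil (R φ x) v w =
      bil (R χ (χ.trans φ x)) (fderiv ℝ (χ.trans φ) x v) (fderiv ℝ (χ.trans φ) x w))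
    {s r : M → ℝ} (hs : ContMDiff (𝓡 2) 𝓘(ℝ, ℝ) ∞ s) (hr : ContMDiff (𝓡 2) 𝓘(ℝ, ℝ) ∞ r)
    {ε D0 : ℝ} (hε : 0 < ε) (hD0 : 0 ≤ D0)
    (hpos : ∀ x ∈ tsupport (fun z => a z * r (χ z)), |R χ x 1| < ε * R χ x 0)
    (hsmall : ∀ x ∈ tsupport a,
      |a x ^ 2 * r (χ x) ^ 2 * (R χ x 2 - ε ^ 2 * R χ x 0) / h.nu g χ x 1 ^ 2| ≤ D0) :
    ∃ (Q : Fin 3 → Prim M) (D : M → ℝ),
      (∀ j, range (Q j).ψ.toFun ⊆ range χ.toFun ∧
        ∀ x, h.nu g (Q j).ψ x 0 = 0 ∧ h.nu g (Q j).ψ x 1 ≠ 0) ∧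
      ContMDiff (𝓡 2) 𝓘(ℝ, ℝ) ∞ D ∧ (∀ p, |D p| ≤ D0) ∧ (∀ p, D p ≠ 0 → p ∈ range χ.toFun) ∧
      ∀ (φ : Chart M) x, χ.ext a (φ x) ^ 2 • (s (φ x) ^ 2 • sq (h.d φ x) + r (φ x) ^ 2 • R φ x) =
        (∑ j, (Q j).val φ x) + D (φ x) • sq (h.nu g φ x) := by
  have hν : ∀ x, h.nu g χ x 0 = 0 ∧ h.nu g χ x 1 ≠ 0 := fun x => ⟨(hbox x).1, (hbox x).2.1⟩
  have har : ContDiff ℝ ∞ fun z => a z * r (χ z) := ha.mul (χ.contDiff_comp hr)
  have harc : HasCompactSupport fun z => a z * r (χ z) := hac.mul_right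
  let σp : E2 → ℝ := fun x => (R χ x 0 + R χ x 1 / ε) / 2
  let σm : E2 → ℝ := fun x => (R χ x 0 - R χ x 1 / ε) / 2
  have hσ : ∀ x ∈ tsupport (fun z => a z * r (χ z)), 0 < σp x ∧ 0 < σm x := fun x hx => by
    have hR0 : |R χ x 1 / ε| < R χ x 0 := by
      rw [abs_div, abs_of_pos hε, div_lt_iff₀' hε]
      exact hpos x hx
    rw [abs_lt] at hR0
    constructor <;> simp only [σp, σm] <;> linarith
  obtain ⟨P0, hP0r, hP0ν, hP0⟩ := exists_prim g h χ hν 0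
    ((ha.mul (χ.contDiff_comp hs)).mul (contDiff_pd (h.smooth χ) 0)) hac.mul_right.mul_right
  obtain ⟨Pp, hPpr, hPpν, hPp⟩ := exists_prim g h χ hν ε
    (contDiff_mul_sqrt har (((hRs 0).add ((hRs 1).div_const ε)).div_const 2)
      fun x hx => (hσ x hx).1) harc.mul_right
  obtain ⟨Pm, hPmr, hPmν, hPm⟩ := exists_prim g h χ hν (-ε)
    (contDiff_mul_sqrt har (((hRs 0).sub ((hRs 1).div_const ε)).div_const 2)
      fun x hx => (hσ x hx).2) harc.mul_right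
  let Dl : E2 → ℝ := fun x =>
    a x ^ 2 * r (χ x) ^ 2 * (R χ x 2 - ε ^ 2 * R χ x 0) / h.nu g χ x 1 ^ 2
  have hDl : ContDiff ℝ ∞ Dl := (((ha.pow 2).mul ((χ.contDiff_comp hr).pow 2)).mul
    ((hRs 2).sub (contDiff_const.mul (hRs 0)))).div ((h.contDiff_nu g χ 1).pow 2)
      fun x => pow_ne_zero _ (hν x).2
  have hDlc : HasCompactSupport Dl := hac.mono fun x hx h0 => hx (by simp [Dl, h0])
  refine ⟨![P0, Pp, Pm], χ.ext Dl, fun j => ?_, χ.ext_contMDiff hDl hDlc, fun p => ?_,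
    fun p hp => by_contra fun hn => hp (χ.ext_of_notMem _ hn), fun φ x => ?_⟩
  · fin_cases j
    · exact ⟨hP0r, hP0ν⟩
    · exact ⟨hPpr, hPpν⟩
    · exact ⟨hPmr, hPmν⟩
  · by_cases hp : p ∈ range χ.toFun
    · obtain ⟨z, rfl⟩ := hp
      rw [Chart.ext_apply]
      by_cases hz : z ∈ tsupport a
      · exact hsmall z hz
      · simp [Dl, image_eq_zero_of_notMem_tsupport hz, hD0]
    · simp [χ.ext_of_notMem _ hp, hD0]
  · simp only [Fin.sum_univ_three, Matrix.cons_val_zero, Matrix.cons_val_one, Matrix.cons_val_two,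
      Matrix.head_cons, Matrix.tail_cons]
    by_cases hx : φ.toFun x ∈ range χ.toFun
    · refine bil_inj fun v w => ?_
      simp only [bil_add, bil_smul, hR φ x hx, h.bil_sq_d_change χ φ hx,
        h.bil_sq_nu_change g χ φ hx, (hP0 φ x).2 hx, (hPp φ x).2 hx, (hPm φ x).2 hx]
      rw [← χ.trans_right φ hx]
      simp only [Chart.ext_apply]
      set y := χ.trans φ x
      set T := fderiv ℝ (χ.trans φ) x
      have e2 : ∀ σ : ℝ, (a y * r (χ.toFun y) ≠ 0 → 0 ≤ σ) →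
          (a y * r (χ.toFun y) * Real.sqrt σ) ^ 2 = a y ^ 2 * r (χ.toFun y) ^ 2 * σ := fun σ hh => by
        rcases eq_or_ne (a y * r (χ.toFun y)) 0 with h0 | h0
        · rw [h0, ← mul_pow, h0]; simp
        · rw [mul_pow, Real.sq_sqrt (hh h0), mul_pow]
      rw [e2 _ fun h0 => (hσ y (subset_tsupport _ h0)).1.le,
        e2 _ fun h0 => (hσ y (subset_tsupport _ h0)).2.le]
      have hd1 : pd 1 (h.h χ) y = 0 := (hbox y).2.2
      have hn := (hν y).2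
      simp [bil, sq, Twisted.d, hd1, (hν y).1, σp, σm, Dl]
      field_simp
      ring
    · simp [χ.ext_of_notMem _ hx, (hP0 φ x).1 hx, (hPp φ x).1 hx, (hPm φ x).1 hx]

/-- Primitive terms along the kernel are removed by twists modulo `ν²`. -/
theorem exists_keep_twists [T2Space M] (hK : KeepTwistStmt) {ι : Type*} [DecidableEq ι]
    (P : ι → Prim M) {W : Set M} (hW : ∀ j, range (P j).ψ.toFun ⊆ W)
    (hν : ∀ j x, h.nu g (P j).ψ x 0 = 0 ∧ h.nu g (P j).ψ x 1 ≠ 0) {f : M → R4}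
    (hf : ContMDiff (𝓡 2) (𝓡 4) ∞ f) (hi : ∀ φ : Chart M, IsImm fun z => f (φ.toFun z))
    (hgd : ∀ p ∈ W, GdAt f p ∧ Abs g h f p) {ε : ℝ} (hε : 0 < ε) (T : Finset ι) :
    ∃ (f' : M → R4) (D : M → ℝ), ContMDiff (𝓡 2) (𝓡 4) ∞ f' ∧
      (∀ φ : Chart M, IsImm fun z => f' (φ.toFun z)) ∧ (∀ p ∈ W, GdAt f' p ∧ Abs g h f' p) ∧
      ContMDiff (𝓡 2) 𝓘(ℝ, ℝ) ∞ D ∧ (∀ p, |D p| ≤ (T.card : ℝ) * ε) ∧
      (∀ p, D p ≠ 0 → ∃ j, p ∈ range (P j).ψ.toFun) ∧
      ∀ (φ : Chart M) x, met (fun z => f' (φ z)) x = met (fun z => f (φ z)) x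
        + ∑ j ∈ T, (P j).val φ x + D (φ x) • sq (h.nu g φ x) := by
  induction T using Finset.induction_on with
  | empty => exact ⟨f, fun _ => 0, hf, hi, hgd, contMDiff_const, by simp, by simp, by simp⟩
  | @insert j T hj ih =>
    obtain ⟨f1, D, hf1, hi1, hgd1, hD, hDb, hDs, hm1⟩ := ih
    set ψ := (P j).ψ with hψ
    have hg1 : ∀ y, GdAt f1 (ψ.toFun y) ∧ Abs g h f1 (ψ.toFun y) := fun y =>
      hgd1 _ (hW j ⟨y, rfl⟩)
    have hef : ∀ y, h.efin g ψ y = -(h.nu g ψ y 1) • ev 0 := fun y => by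
      simp [Twisted.efin, hψ, (hν j y).1]
    obtain ⟨u, δ, hu, hδ, hiu, ⟨K, hKc, hKU, hoff⟩, hδc, -, hδb, hmu, hgu, hII⟩ :=
      hK (fun z => f1 (ψ.toFun z)) (P j).a (fun x => h.nu g ψ x) univ (ψ.contDiff_comp hf1)
        (hi1 ψ) (P j).smooth (P j).compact isOpen_univ (subset_univ _) (h.contDiff_nu g ψ)
        (fun x _ => (hν j x).2) (fun x _ => (hν j x).1)
        (fun x _ h0 => (hg1 x).2 ψ x rfl (by
          rw [hef, II_smul (ψ.contDiff_comp hf1), h0, smul_zero]))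
        (fun x _ => (gdAt_chart_iff ψ f1 x).2 (hg1 x).1) ε hε
    have hF := ψ.glue_contMDiff hu hf1 hKc hoff
    refine ⟨ψ.glue u f1, fun p => D p + ψ.ext δ p, hF, ψ.isImm_glue hu hf1 hKc hoff hiu hi1,
      fun p hp => ⟨ψ.gdAt_glue hKc hKU hoff hgu (hgd1 p hp).1, ?_⟩,
      hD.add (ψ.ext_contMDiff hδ hδc), fun p => ?_, fun p hp => ?_, fun φ x => ?_⟩
    · by_cases hr : p ∈ range ψ.toFun
      · obtain ⟨y, rfl⟩ := hr
        refine abs_of_chart hF ?_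
        rw [Chart.glue_comp, hef, II_smul hu]
        exact smul_ne_zero (pow_ne_zero _ (neg_ne_zero.2 (hν j y).2)) (hII y (mem_univ _))
      · intro φ x hx
        have hp' : φ.toFun x ∉ ψ.toFun '' K := by
          rintro ⟨y, -, hy⟩
          exact hr ⟨y, hy.trans hx⟩
        have he : (fun z => ψ.glue u f1 (φ.toFun z)) =ᶠ[𝓝 x] fun z => f1 (φ.toFun z) :=
          (ψ.glue_eventuallyEq hKc hoff hp').comp_tendsto φ.continuous.continuousAt
        rw [II_congr he]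
        exact (hgd1 p hp).2 φ x hx
    · rw [Finset.card_insert_of_notMem hj, Nat.cast_add_one, add_one_mul]
      refine (abs_add_le _ _).trans (add_le_add (hDb p) ?_)
      by_cases hr : p ∈ range ψ.toFun
      · obtain ⟨y, rfl⟩ := hr
        simpa using hδb y
      · simpa [ψ.ext_of_notMem _ hr] using hε.le
    · by_cases h0 : ψ.ext δ p = 0
      · exact hDs p (by simpa [h0] using hp)
      · exact ⟨j, by_contra fun hr => h0 (ψ.ext_of_notMem _ hr)⟩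
    · rw [met_glue h g ψ hu hf1 hKc hoff hmu φ x, hm1 φ x, Finset.sum_insert hj, Prim.val_eq]
      module

end Vale.Agent.P205F.Crest
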