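import Vale.Agent.P205F.Crest.Point
import Vale.Agent.P205F.Crest.Decomp

/-!
# P205, the crest: the small perturbation and the slack after it
-/

namespace Vale.Agent.P205F

open scoped Manifold ContDiff RealInnerProductSpace Topology
open Set Filter Function

universe u

namespace Crest

variable {M : Type u} [TopologicalSpace M] [ChartedSpace E2 M]

/-- Goodness passes to a map with the same jets on the closure of an open set. -/
lemma gdAt_of_closure {f F : M → R4} (hf : ContMDiff (𝓡 2) (𝓡 4) ∞ f)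
    (hF : ContMDiff (𝓡 2) (𝓡 4) ∞ F) {O : Set M} (hO : IsOpen O) (he : ∀ p ∈ O, F p = f p) {p : M}
    (hp : p ∈ closure O) (h : GdAt f p) : GdAt F p := by
  obtain ⟨I, ψ, x, rfl, hx⟩ := h
  have hx' : x ∈ closure (ψ.toFun ⁻¹' O) :=
    (ψ.open_emb.isOpenMap.preimage_closure_eq_closure_preimage ψ.continuous O).le hp
  have hcl : IsClosed {z | jet I.N (fun y => F (ψ y)) z = jet I.N (fun y => f (ψ y)) z} :=
    isClosed_eq (continuous_jet (ψ.contDiff_comp hF)) (continuous_jet (ψ.contDiff_comp hf))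
  refine ⟨I, ψ, x, rfl, ?_⟩
  rw [closure_minimal (fun z hz => ?_) hcl hx']
  · exact hx
  · exact jet_congr (eventually_of_mem ((hO.preimage ψ.continuous).mem_nhds hz) fun y hy => he _ hy)

variable [T2Space M] [CompactSpace M] [IsManifold (𝓡 2) ∞ M] {g : Metric M}

/-- A small perturbation inside `U` is good on `T` and keeps everything else. -/
theorem exists_perturb (hGen : GenericStmt.{u}) {h : Twisted M} {f F1 : M → R4}
    (hf : ContMDiff (𝓡 2) (𝓡 4) ∞ f) (hF1 : ContMDiff (𝓡 2) (𝓡 4) ∞ F1)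
    (hi : ∀ p, ImmAt F1 p) {T K U : Set M} (hT : IsCompact T) (hgd : ∀ p ∈ T, GdAt f p)
    (ha : ∀ p ∈ T, Abs g h F1 p) (hK : IsClosed K) (hU : IsOpen U) (hKU : K ⊆ U)
    (hoff : ∀ p ∉ K, F1 p = f p) {N : ℕ} (χ : Fin N → Chart M) {C : Fin N → Set E2}
    (hC : ∀ i, IsCompact (C i)) {δ : ℝ} (hδ : 0 < δ) :
    ∃ F2 : M → R4, ContMDiff (𝓡 2) (𝓡 4) ∞ F2 ∧ (∀ φ : Chart M, IsImm fun z => F2 (φ z)) ∧
      (∀ p ∈ T, GdAt F2 p ∧ Abs g h F2 p) ∧ (∀ p ∉ U, F2 =ᶠ[𝓝 p] f) ∧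
      ∀ i, ∀ x ∈ C i,
        ‖met (fun z => F2 (χ i z)) x - met (fun z => F1 (χ i z)) x‖ ≤ δ := by
  obtain ⟨d, Φ, hΦ, hΦU, hgen⟩ := hGen M F1 K U hF1 (fun φ x => hi _ φ x rfl) hK.isCompact hU hKU
  let G : (Fin d → ℝ) → M → R4 := fun l q => F1 q + ∑ k, l k • Φ k q
  have hG : SmoothFam G := smoothFam_affine hF1 hΦ
  have hG0 : G 0 = F1 := by funext q; simp [G]
  have hgdA : ∀ p ∈ T ∩ closure Kᶜ, GdAt (G 0) p := fun p hp => by
    rw [hG0]
    exact gdAt_of_closure hf hF1 hK.isOpen_compl hoff hp.2 (hgd p hp.1)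
  obtain ⟨ε', hε', hε'l⟩ := Metric.eventually_nhds_iff.1
    ((exists_stable (g := g) (h := h) hG (l := 0) (fun p => by rw [hG0]; exact hi p)
      (hT.inter_right isClosed_closure) hgdA hT (fun p hp => by rw [hG0]; exact ha p hp)).and
      (eventually_all.2 fun i => eventually_met hG 0 (χ i) (hC i) hδ))
  obtain ⟨l, hl, hlK⟩ := hgen ε' hε'
  obtain ⟨⟨hi2, hA2, ha2⟩, hm2⟩ := hε'l (by rwa [dist_zero_right] : dist l 0 < ε')
  refine ⟨G l, hG.smooth l, hi2, fun p hp => ⟨?_, ha2 p hp⟩, fun p hp => ?_, fun i x hx => ?_⟩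
  · by_cases hpK : p ∈ K
    · exact hlK p hpK
    · exact hA2 p ⟨hp, subset_closure hpK⟩
  · have h1 : ∀ᶠ q in 𝓝 p, q ∉ K := hK.isOpen_compl.mem_nhds fun hk => hp (hKU hk)
    have h2 : ∀ᶠ q in 𝓝 p, ∀ k, Φ k q = 0 := eventually_all.2 fun k =>
      notMem_tsupport_iff_eventuallyEq.1 fun hk => hp (hΦU k hk)
    filter_upwards [h1, h2] with q hq hq'
    simp [G, hq', hoff q hq]
  · have := (hm2 i x hx).le
    rwa [hG0] at this

omit [T2Space M] [CompactSpace M] [IsManifold (𝓡 2) ∞ M] in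
lemma bil_sub (q q' : S3) (v w : E2) : bil (q - q') v w = bil q v w - bil q' v w := by
  simp [bil]; ring

/-- The weight of the new slack. -/
noncomputable def cut (S : Shape M) (p : M) : ℝ := Real.smoothTransition (8 * S.θ0 p - 1)

/-- The slack left by the crest, in squares along the kernel of `ν`. -/
theorem exists_dec {S : Shape M} {η : ℝ} (hη : 0 < η) {f F2 : M → R4}
    (hf : ContMDiff (𝓡 2) (𝓡 4) ∞ f) (hF2 : ContMDiff (𝓡 2) (𝓡 4) ∞ F2)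
    (hoff : ∀ p, S.θ0 p ≤ 1 / 4 → F2 =ᶠ[𝓝 p] f) {N : ℕ} {χ : Fin N → Chart M}
    (hχ : ∀ i x, S.h.nu g (χ i) x 0 = 0 ∧ S.h.nu g (χ i) x 1 ≠ 0 ∧ S.h.d (χ i) x 1 = 0)
    {a : Fin N → E2 → ℝ} (ha : ∀ i, ContDiff ℝ ∞ (a i)) (hac : ∀ i, HasCompactSupport (a i))
    (ha2 : ∀ i x, a i x ^ 2 ≤ 1) (hsum : ∀ p ∈ tsupport S.θ0, ∑ i, (χ i).ext (a i) p ^ 2 = 1)
    {C2 ε δ D0 : ℝ} (hC2 : 0 < C2) (hε : 0 < ε) (hε1 : ε ≤ 1) (hδ : 0 < δ) (hD0 : 0 < D0)
    (hδ1 : δ * (16 * C2) ≤ D0) (hδ2 : δ * (2048 * C2) ≤ ε * η)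
    (hε2 : ε * (2 * η * C2 ^ 2) ≤ D0)
    (hbd : ∀ i, ∀ x ∈ tsupport (a i), 1 / S.h.nu g (χ i) x 1 ^ 2 ≤ C2 ∧
      S.h.d (χ i) x 0 ^ 2 ≤ C2 ∧ 1 ≤ C2 * S.h.d (χ i) x 0 ^ 2)
    (hm : ∀ i, ∀ x ∈ tsupport (a i), ∃ ρ : ℝ, 0 ≤ ρ ∧ ρ ≤ η * S.θ0 (χ i x) ^ 2 / 2 ∧
      ‖met (fun z => F2 (χ i z)) x - met (fun z => f (χ i z)) x - ρ • sq (S.h.d (χ i) x)‖ ≤
        2 * δ) :
    ∃ (Q : Fin N × Fin 3 → Prim M) (D : M → ℝ),
      (∀ j, range (Q j).ψ.toFun ⊆ range (χ j.1).toFun ∧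
        ∀ x, S.h.nu g (Q j).ψ x 0 = 0 ∧ S.h.nu g (Q j).ψ x 1 ≠ 0) ∧
      ContMDiff (𝓡 2) 𝓘(ℝ, ℝ) ∞ D ∧ (∀ p, |D p| ≤ (N : ℝ) * D0) ∧
      (∀ p, D p ≠ 0 → ∃ i, p ∈ range (χ i).toFun) ∧
      ∀ (φ : Chart M) x, met (fun z => f (φ z)) x + (η * S.θ0 (φ x) ^ 2) • sq (S.h.d φ x) =
        met (fun z => F2 (φ z)) x + ∑ j, (Q j).val φ x + D (φ x) • sq (S.h.nu g φ x) := by
  let R : Chart M → E2 → S3 := fun φ x => (η * S.θ0 (φ x) ^ 2) • sq (S.h.d φ x)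
    + (met (fun z => f (φ z)) x - met (fun z => F2 (φ z)) x)
  have hRs : ∀ φ i, ContDiff ℝ ∞ fun x => R φ x i := fun φ i =>
    ((contDiff_const.mul ((φ.contDiff_comp S.θ0_smooth).pow 2)).mul
      (contDiff_pi.1 (contDiff_sq fun j => contDiff_pd (S.h.smooth φ) j) i)).add
      ((contDiff_met (φ.contDiff_comp hf) i).sub (contDiff_met (φ.contDiff_comp hF2) i))
  have hRc : ∀ (ψ φ : Chart M) x, φ.toFun x ∈ range ψ.toFun → ∀ v w, bil (R φ x) v w =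
      bil (R ψ (ψ.trans φ x)) (fderiv ℝ (ψ.trans φ) x v) (fderiv ℝ (ψ.trans φ) x w) := by
    intro ψ φ x hx v w
    simp only [R, bil_add, bil_smul, bil_sub, S.h.bil_sq_d_change ψ φ hx,
      bil_met_change ψ φ hf hx, bil_met_change ψ φ hF2 hx, ψ.trans_right φ hx]
  set τ : M → ℝ := fun p => 1 - cut S p ^ 2 with hτ
  set r : M → ℝ := fun p => cut S p * Real.sqrt (2 - cut S p ^ 2) with hr
  have hcut : ∀ p, 0 ≤ cut S p ∧ cut S p ≤ 1 := fun p =>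
    ⟨Real.smoothTransition.nonneg _, Real.smoothTransition.le_one _⟩
  have hcut2 : ∀ p, (0 : ℝ) < 2 - cut S p ^ 2 := fun p => by
    linarith [pow_le_one₀ (n := 2) (hcut p).1 (hcut p).2]
  have hτr : ∀ p, τ p ^ 2 + r p ^ 2 = 1 := fun p => by
    simp only [hτ, hr]
    rw [mul_pow, Real.sq_sqrt (hcut2 p).le]
    ring
  have hτ0 : ∀ p, 1 / 4 ≤ S.θ0 p → τ p = 0 := fun p hp => by
    simp [hτ, cut, Real.smoothTransition.one_of_one_le (show 1 ≤ 8 * S.θ0 p - 1 by linarith)]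
  have hcs : ContMDiff (𝓡 2) 𝓘(ℝ, ℝ) ∞ (cut S) :=
    (Real.smoothTransition.contDiff.comp ((contDiff_const.mul contDiff_id).sub contDiff_const) :
      ContDiff ℝ ∞ fun t : ℝ => Real.smoothTransition (8 * t - 1)).comp_contMDiff S.θ0_smooth
  have hrs : ContMDiff (𝓡 2) 𝓘(ℝ, ℝ) ∞ r := Chart.contMDiff_of_forall fun φ =>
    (φ.contDiff_comp hcs).mul
      ((contDiff_const.sub ((φ.contDiff_comp hcs).pow 2)).sqrt fun x => (hcut2 _).ne')
  have hss : ContMDiff (𝓡 2) 𝓘(ℝ, ℝ) ∞ fun p => τ p * (Real.sqrt η * S.θ0 p) :=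
    Chart.contMDiff_of_forall fun φ =>
      (contDiff_const.sub ((φ.contDiff_comp hcs).pow 2)).mul
        (contDiff_const.mul (φ.contDiff_comp S.θ0_smooth))
  have hrsupp : tsupport r ⊆ {p | 1 / 8 ≤ S.θ0 p} := by
    refine closure_minimal (fun p hp => ?_) (isClosed_le continuous_const S.θ0_smooth.continuous)
    show 1 / 8 ≤ S.θ0 p
    by_contra hlt
    push Not at hlt
    exact hp (by simp [hr, cut, Real.smoothTransition.zero_of_nonpos
      (show 8 * S.θ0 p - 1 ≤ 0 by linarith)])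
  have hcomp : ∀ i, ∀ x ∈ tsupport (a i),
      η * S.θ0 (χ i x) ^ 2 * S.h.d (χ i) x 0 ^ 2 / 2 - 2 * δ ≤ R (χ i) x 0 ∧
      R (χ i) x 0 ≤ η * C2 + 2 * δ ∧ |R (χ i) x 1| ≤ 2 * δ ∧ |R (χ i) x 2| ≤ 2 * δ := by
    intro i x hx
    obtain ⟨ρ, hρ0, hρ, hm1⟩ := hm i x hx
    have k : ∀ j, |met (fun z => F2 (χ i z)) x j - met (fun z => f (χ i z)) x j
        - ρ * sq (S.h.d (χ i) x) j| ≤ 2 * δ := fun j =>
      ((norm_le_pi_norm _ j).trans hm1).trans_eq' (by simp [Real.norm_eq_abs])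
    have hd1 : S.h.d (χ i) x 1 = 0 := (hχ i x).2.2
    have hRj : ∀ j, R (χ i) x j = η * S.θ0 (χ i x) ^ 2 * sq (S.h.d (χ i) x) j
        + (met (fun z => f (χ i z)) x j - met (fun z => F2 (χ i z)) x j) := fun j => by simp [R]
    have h0 := abs_le.1 (k 0)
    have h1 := abs_le.1 (k 1)
    have h2 := abs_le.1 (k 2)
    simp [sq, hd1] at h0 h1 h2
    have hρH : 0 ≤ ρ * S.h.d (χ i) x 0 ^ 2 := mul_nonneg hρ0 (sq_nonneg _)
    have hρH2 := mul_le_mul_of_nonneg_right hρ (sq_nonneg (S.h.d (χ i) x 0))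
    have hθ2 : S.θ0 (χ i x) ^ 2 ≤ 1 := pow_le_one₀ (S.θ0_range _).1 (S.θ0_range _).2
    have hup : η * S.θ0 (χ i x) ^ 2 * S.h.d (χ i) x 0 ^ 2 ≤ η * C2 :=
      mul_le_mul (mul_le_of_le_one_right hη.le hθ2) (hbd i x hx).2.1 (sq_nonneg _) hη.le
    simp only [hRj, sq, hd1, abs_le]
    simp
    refine ⟨?_, ?_, ⟨?_, ?_⟩, ?_, ?_⟩ <;>
      linarith [h0.1, h0.2, h1.1, h1.2, h2.1, h2.2]
  have hpos : ∀ i, ∀ x ∈ tsupport (fun z => a i z * r (χ i z)),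
      |R (χ i) x 1| < ε * R (χ i) x 0 := fun i x hx => by
    have hxa : x ∈ tsupport (a i) := tsupport_mul_subset_left hx
    have hxr : χ i x ∈ tsupport r := tsupport_comp_subset_preimage r (χ i).continuous
      (tsupport_mul_subset_right hx)
    obtain ⟨e0, -, e1, -⟩ := hcomp i x hxa
    have hθ : 1 / 8 ≤ S.θ0 (χ i x) := hrsupp hxr
    have h64 : 1 / 64 ≤ S.θ0 (χ i x) ^ 2 := by
      have := pow_le_pow_left₀ (by norm_num) hθ 2
      linarith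
    have hlow : η / 128 ≤ (η * S.θ0 (χ i x) ^ 2 * S.h.d (χ i) x 0 ^ 2 / 2) * C2 := by
      calc η / 128 = η * (1 / 64) / 2 * 1 := by ring
        _ ≤ η * S.θ0 (χ i x) ^ 2 / 2 * (C2 * S.h.d (χ i) x 0 ^ 2) :=
          mul_le_mul (by gcongr) (hbd i x hxa).2.2 zero_le_one (by positivity)
        _ = _ := by ring
    refine e1.trans_lt (lt_of_mul_lt_mul_right ?_ hC2.le)
    have h5 : (η / 128 - 2 * (δ * C2)) * ε ≤ (R (χ i) x 0 * C2) * ε := by
      refine mul_le_mul_of_nonneg_right ?_ hε.le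
      have := mul_le_mul_of_nonneg_right e0 hC2.le
      linarith
    have h7 : δ * C2 * ε ≤ δ * C2 := mul_le_of_le_one_right (by positivity) hε1
    linarith [mul_pos hε hη]
  have hsmall : ∀ i, ∀ x ∈ tsupport (a i), |a i x ^ 2 * r (χ i x) ^ 2 *
      (R (χ i) x 2 - ε ^ 2 * R (χ i) x 0) / S.h.nu g (χ i) x 1 ^ 2| ≤ D0 := fun i x hx => by
    obtain ⟨e0, e0', -, e2⟩ := hcomp i x hx
    rw [abs_div, abs_mul, abs_of_nonneg (mul_nonneg (sq_nonneg _) (sq_nonneg _)),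
      abs_of_nonneg (sq_nonneg (S.h.nu g (χ i) x 1)), div_eq_mul_one_div]
    have hlo : -(2 * δ) ≤ R (χ i) x 0 := by
      refine le_trans ?_ e0
      have : 0 ≤ η * S.θ0 (χ i x) ^ 2 * S.h.d (χ i) x 0 ^ 2 / 2 := by positivity
      linarith
    have he : |R (χ i) x 2 - ε ^ 2 * R (χ i) x 0| ≤ 4 * δ + ε * (η * C2) := by
      have hε2' : ε ^ 2 ≤ ε := by rw [pow_two]; exact mul_le_of_le_one_left hε.le hε1
      have hb : |R (χ i) x 0| ≤ η * C2 + 2 * δ := by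
        rw [abs_le]; constructor <;> linarith [mul_pos hη hC2]
      have := mul_le_mul hε2' hb (abs_nonneg _) hε.le
      have h8 : ε * δ ≤ δ := mul_le_of_le_one_left hδ.le hε1
      refine (abs_sub _ _).trans ?_
      rw [abs_mul, abs_of_nonneg (sq_nonneg ε)]
      linarith
    have hr2 : r (χ i x) ^ 2 ≤ 1 := by linarith [hτr (χ i x), sq_nonneg (τ (χ i x))]
    calc a i x ^ 2 * r (χ i x) ^ 2 * |R (χ i) x 2 - ε ^ 2 * R (χ i) x 0|
          * (1 / S.h.nu g (χ i) x 1 ^ 2) ≤ 1 * (4 * δ + ε * (η * C2)) * C2 :=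
        mul_le_mul (mul_le_mul (mul_le_one₀ (ha2 i x) (sq_nonneg _) hr2) he (abs_nonneg _)
          zero_le_one) (hbd i x hx).1 (by positivity) (by positivity)
      _ ≤ D0 := by linarith
  choose Q D hQ hD hDb hDs hQid using fun i => exists_split g S.h (χ i) (hχ i) (ha i) (hac i)
    (hRs (χ i)) (hRc (χ i)) hss hrs hε hD0.le (hpos i) (hsmall i)
  refine ⟨fun j => Q j.1 j.2, fun p => ∑ i, D i p, fun j => hQ j.1 j.2,
    ContMDiff.sum fun i _ => hD i, fun p => ?_, fun p hp => ?_, fun φ x => ?_⟩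
  · refine (Finset.abs_sum_le_sum_abs _ _).trans ?_
    refine (Finset.sum_le_sum fun i _ => hDb i p).trans_eq ?_
    simp
  · obtain ⟨i, -, hi⟩ := Finset.exists_ne_zero_of_sum_ne_zero hp
    exact ⟨i, hDs i p hi⟩
  have hEoff : S.θ0 (φ x) ≤ 1 / 4 →
      met (fun z => F2 (φ z)) x = met (fun z => f (φ z)) x := fun h => by
    have he : (fun z => F2 (φ z)) =ᶠ[𝓝 x] fun z => f (φ z) :=
      (hoff _ h).comp_tendsto φ.continuous.continuousAt
    simp only [met, pd, he.fderiv_eq]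
  have hsplit : (τ (φ x) * (Real.sqrt η * S.θ0 (φ x))) ^ 2 • sq (S.h.d φ x)
      + r (φ x) ^ 2 • R φ x = R φ x := by
    have hs2 : (τ (φ x) * (Real.sqrt η * S.θ0 (φ x))) ^ 2 =
        τ (φ x) ^ 2 * (η * S.θ0 (φ x) ^ 2) := by
      rw [mul_pow, mul_pow, Real.sq_sqrt hη.le]
    rcases le_total (S.θ0 (φ x)) (1 / 4) with h | h
    · simp only [R, hEoff h, sub_self, add_zero, smul_smul, ← add_smul, hs2, ← add_mul, hτr,
        one_mul]
    · have hr1 : r (φ x) ^ 2 = 1 := by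
        have := hτr (φ x)
        simpa [hτ0 _ h] using this
      simp [hr1, hτ0 _ h]
  have hsumR : (∑ i, (χ i).ext (a i) (φ x) ^ 2) • R φ x = R φ x := by
    by_cases h : φ.toFun x ∈ tsupport S.θ0
    · rw [hsum _ h, one_smul]
    · have h0 := image_eq_zero_of_notMem_tsupport h
      have : R φ x = 0 := by simp [R, hEoff (by rw [h0]; norm_num), h0]
      rw [this, smul_zero]
  have hRsum : R φ x =
      ∑ j : Fin N × Fin 3, (Q j.1 j.2).val φ x + (∑ i, D i (φ x)) • sq (S.h.nu g φ x) := by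
    conv_lhs => rw [← hsumR, Finset.sum_smul]
    rw [Fintype.sum_prod_type, Finset.sum_smul, ← Finset.sum_add_distrib]
    refine Finset.sum_congr rfl fun i _ => ?_
    have := hQid i φ x
    rwa [hsplit] at this
  rw [add_assoc, ← hRsum]
  simp [R]
  abel

end Crest

end Vale.Agent.P205F
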