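import Vale.Agent.P205F.Crest.Choice
import Vale.Agent.P205F.Crest.Boxes
import Vale.Agent.P205F.Crest.Slack

/-!
# P205, the crest: proof of `CrestStmt`

The crest map makes `II(e,e) ≠ 0`; a small perturbation makes it good; the slack left over is cut
into squares along the kernel of `ν`, which twists remove modulo `ν²`.
-/

namespace Vale.Agent.P205F

open scoped Manifold ContDiff RealInnerProductSpace Topology
open Set Filter Function

universe u

namespace Crest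

variable {M : Type u} [TopologicalSpace M] [ChartedSpace E2 M]

lemma exists_piece {N : ℕ} {ψ : Fin N → Chart M} {a : Fin N → E2 → ℝ} {p : M}
    (h : ∑ i, (ψ i).ext (a i) p ^ 2 = 1) : ∃ i, ∃ y ∈ tsupport (a i), (ψ i).toFun y = p := by
  obtain ⟨i, -, hi⟩ := Finset.exists_ne_zero_of_sum_ne_zero (h.trans_ne one_ne_zero)
  have hr : p ∈ range (ψ i).toFun :=
    by_contra fun hn => hi (by simp [(ψ i).ext_of_notMem _ hn])
  obtain ⟨y, rfl⟩ := hr
  exact ⟨i, y, subset_tsupport _ fun h0 => hi (by simp [h0]), rfl⟩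

/-- A bound common to finitely many. -/
lemma le_one_add_sum {N : ℕ} (C : Fin N → ℝ) (i : Fin N) : C i ≤ 1 + ∑ j, |C j| := by
  have := Finset.single_le_sum (fun j _ => abs_nonneg (C j)) (Finset.mem_univ i)
  linarith [le_abs_self (C i)]

variable [IsManifold (𝓡 2) ∞ M]

/-- `c² + D` has a smooth square root when `D` is small and lives where `c` is large. -/
lemma exists_sqrt_add {c D : M → ℝ} (hc : ContMDiff (𝓡 2) 𝓘(ℝ, ℝ) ∞ c)
    (hD : ContMDiff (𝓡 2) 𝓘(ℝ, ℝ) ∞ D) {c1 : ℝ} (hc1 : 0 < c1)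
    (hs : ∀ p, D p ≠ 0 → c1 < c p) (hb : ∀ p, |D p| ≤ c1 ^ 2 / 2) :
    ∃ c' : M → ℝ, ContMDiff (𝓡 2) 𝓘(ℝ, ℝ) ∞ c' ∧ tsupport c' ⊆ tsupport c ∧
      ∀ p, c' p ^ 2 = c p ^ 2 + D p := by
  have hq : ∀ p, 0 < 1 + D p / c p ^ 2 := fun p => by
    rcases eq_or_ne (D p) 0 with h0 | h0
    · simp [h0]
    · have h2 : c1 ^ 2 ≤ c p ^ 2 := pow_le_pow_left₀ hc1.le (hs p h0).le 2
      have hp : 0 < c p ^ 2 := lt_of_lt_of_le (pow_pos hc1 2) h2
      rw [show 1 + D p / c p ^ 2 = (c p ^ 2 + D p) / c p ^ 2 by rw [add_div, div_self hp.ne']]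
      refine div_pos ?_ hp
      linarith [neg_abs_le (D p), hb p]
  refine ⟨fun p => c p * Real.sqrt (1 + D p / c p ^ 2), Chart.contMDiff_of_forall fun ψ => ?_,
    tsupport_mul_subset_left, fun p => ?_⟩
  · refine contDiff_iff_contDiffAt.2 fun x => ?_
    have hcx := (ψ.contDiff_comp hc).contDiffAt (x := x)
    refine hcx.mul ((Real.contDiffAt_sqrt (hq _).ne').comp x (contDiffAt_const.add ?_))
    by_cases h0 : c (ψ.toFun x) = 0
    · refine (contDiffAt_const (c := (0 : ℝ))).congr_of_eventuallyEq ?_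
      have hlt : c (ψ.toFun x) < c1 := by rw [h0]; exact hc1
      filter_upwards [hcx.continuousAt.eventually (gt_mem_nhds hlt)] with z hz
      have : D (ψ.toFun z) = 0 := by_contra fun hn => (hs _ hn).not_gt hz
      simp [this]
    · exact (ψ.contDiff_comp hD).contDiffAt.div (hcx.pow 2) (pow_ne_zero _ h0)
  · rw [mul_pow, Real.sq_sqrt (hq p).le]
    rcases eq_or_ne (c p) 0 with h0 | h0
    · have : D p = 0 := by_contra fun hn => by linarith [hs p hn]
      simp [h0, this]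
    · field_simp

/-- Boxes covering `supp θ0`, with the bounds they give. -/
lemma exists_boxes [T2Space M] [CompactSpace M] (g : Metric M) (S : Shape M) {O : Set M}
    (hO : IsOpen O) (hθO : tsupport S.θ0 ⊆ O) (hOc : Disjoint S.h.crit O) :
    ∃ (N : ℕ) (χ : Fin N → Chart M) (a : Fin N → E2 → ℝ) (C2 : ℝ), 0 < C2 ∧
      (∀ i, range (χ i).toFun ⊆ O) ∧
      (∀ i x, S.h.nu g (χ i) x 0 = 0 ∧ S.h.nu g (χ i) x 1 ≠ 0 ∧ S.h.d (χ i) x 1 = 0) ∧
      (∀ i, ContDiff ℝ ∞ (a i)) ∧ (∀ i, HasCompactSupport (a i)) ∧ (∀ i x, a i x ^ 2 ≤ 1) ∧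
      (∀ p ∈ tsupport S.θ0, ∑ i, (χ i).ext (a i) p ^ 2 = 1) ∧
      ∀ i, ∀ x ∈ tsupport (a i), 1 / S.h.nu g (χ i) x 1 ^ 2 ≤ C2 ∧
        S.h.d (χ i) x 0 ^ 2 ≤ C2 ∧ 1 ≤ C2 * S.h.d (χ i) x 0 ^ 2 := by
  obtain ⟨N, χ, a, hχ, ha, hac, -, hale, hsum⟩ :=
    exists_cover_of (fun χ : Chart M => range χ.toFun ⊆ O ∧
        ∀ x, S.h.nu g χ x 0 = 0 ∧ S.h.nu g χ x 1 ≠ 0 ∧ S.h.d χ x 1 = 0)
      (isClosed_tsupport S.θ0).isCompact fun p hp => by
        obtain ⟨χ, h1, h2, h3⟩ := exists_box g S.h S.crit_finite hO (hθO hp)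
          fun hpc => Set.disjoint_left.1 hOc hpc (hθO hp)
        exact ⟨χ, h1, h2, h3⟩
  have hH : ∀ i x, S.h.d (χ i) x 0 ≠ 0 := fun i x h0 => by
    refine Set.disjoint_left.1 hOc ((S.h.mem_crit_iff (χ i) x).2 ?_) ((hχ i).1 ⟨x, rfl⟩)
    have h1 := ((hχ i).2 x).2.2
    simp only [Twisted.d] at h0 h1
    ext v
    rw [apply_eq_pd, h0, h1]
    simp
  have hWc : ∀ i, Continuous fun x => 1 / S.h.nu g (χ i) x 1 ^ 2 + S.h.d (χ i) x 0 ^ 2
      + 1 / S.h.d (χ i) x 0 ^ 2 := fun i => by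
    have hd : Continuous fun x => S.h.d (χ i) x 0 ^ 2 :=
      ((contDiff_pd (S.h.smooth (χ i)) 0).continuous).pow 2
    exact ((continuous_const.div ((S.h.contDiff_nu g (χ i) 1).continuous.pow 2)
      fun x => pow_ne_zero _ ((hχ i).2 x).2.1).add hd).add
      (continuous_const.div hd fun x => pow_ne_zero _ (hH i x))
  choose Wb hWb using fun i => (hac i).exists_bound_of_continuousOn (hWc i).continuousOn
  refine ⟨N, χ, a, 1 + ∑ j, |Wb j|, lt_of_lt_of_le one_pos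
    (le_add_of_nonneg_right (Finset.sum_nonneg fun j _ => abs_nonneg _)), fun i => (hχ i).1,
    fun i => (hχ i).2, ha, hac, fun i x => ?_, hsum, fun i x hx => ?_⟩
  · have h := (Finset.single_le_sum (f := fun j => (χ j).ext (a j) ((χ i).toFun x) ^ 2)
      (fun j _ => sq_nonneg _) (Finset.mem_univ i)).trans (hale _)
    simpa using h
  · have h1 := ((le_abs_self _).trans (hWb i x hx)).trans (le_one_add_sum Wb i)
    have p1 : 0 ≤ 1 / S.h.nu g (χ i) x 1 ^ 2 := by positivity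
    have p2 : 0 < S.h.d (χ i) x 0 ^ 2 := pow_two_pos_of_ne_zero (hH i x)
    have p3 : 0 ≤ 1 / S.h.d (χ i) x 0 ^ 2 := by positivity
    refine ⟨by linarith, by linarith, ?_⟩
    rw [← div_le_iff₀ p2]
    linarith

/-- The crest map at a large frequency. -/
lemma exists_crest [T2Space M] [CompactSpace M] {g : Metric M} {S : Shape M} {C μ η : ℝ}
    (hC : 1 ≤ C) (hμ0 : 0 < μ) (hμ1 : μ ≤ 1) (hη : 0 < η) {f n : M → R4} (hfn : Framed f n)
    {N0 : ℕ} {ψ0 : Fin N0 → Chart M} {a0 : Fin N0 → E2 → ℝ} (ha0 : ∀ i, HasCompactSupport (a0 i))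
    (hsum0 : ∀ p ∈ tsupport S.θf, ∑ i, (ψ0 i).ext (a0 i) p ^ 2 = 1)
    (hsb : ∀ i, ∀ x ∈ tsupport (a0 i), StaticBd g S C (ψ0 i) x)
    (hnear : ∀ i, ∀ᶠ L in atTop, ∀ x ∈ tsupport (a0 i), (ψ0 i) x ∈ S.Z →
      II (loopIn S.h μ L f n (Crest.bb S η) (ψ0 i)) x (S.h.efin g (ψ0 i) x) ≠ 0)
    {N : ℕ} (χ : Fin N → Chart M) {K : Fin N → Set E2} (hK : ∀ i, IsCompact (K i))
    {δ : ℝ} (hδ : 0 < δ) :
    ∃ F1 : M → R4, ContMDiff (𝓡 2) (𝓡 4) ∞ F1 ∧ (∀ p, ImmAt F1 p) ∧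
      (∀ p ∈ tsupport S.θf, Abs g S.h F1 p) ∧ (∀ p ∉ tsupport (Crest.bb S η), F1 p = f p) ∧
      ∀ i, ∀ x ∈ K i, ∃ ρ : ℝ, 0 ≤ ρ ∧ ρ ≤ 2 * Crest.bb S η ((χ i) x) ^ 2 ∧
        ‖met (fun z => F1 (χ i z)) x - met (fun z => f (χ i z)) x - ρ • sq (S.h.d (χ i) x)‖ ≤
          δ := by
  obtain ⟨N1, ψ1, a1, -, -, ha1, -, -, hsum1⟩ :=
    exists_cover (M := M) isCompact_univ isOpen_univ (subset_univ _)
  have hF : ∀ L (φ : Chart M), (fun z => crestMap S.h μ L f n (Crest.bb S η) (φ z)) =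
      loopIn S.h μ L f n (Crest.bb S η) φ := fun L φ =>
    funext (crestMap_apply S.h hfn μ L (Crest.bb S η) φ)
  obtain ⟨L, hLZ, hLθ, hL1, hLm⟩ := ((eventually_all.2 hnear).and
    ((eventually_all.2 fun i => exists_far hC hμ0 hμ1 hη hfn (ψ0 i) (ha0 i) (hsb i)).and
      ((eventually_all.2 fun i =>
        exists_metric (S := S) (η := η) hμ0 hμ1 hfn g (ψ1 i) (ha1 i) hδ).and
      (eventually_all.2 fun i =>
        exists_metric (S := S) (η := η) hμ0 hμ1 hfn g (χ i) (hK i) hδ)))).exists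
  have hs := crestMap_smooth S.h hfn μ L (bb_smooth S η)
  refine ⟨crestMap S.h μ L f n (Crest.bb S η), hs, fun p => ?_, fun p hp => ?_,
    fun p hp => crestMap_of_zero S.h hfn μ L (image_eq_zero_of_notMem_tsupport hp),
    fun i x hx => ?_⟩
  · obtain ⟨i, y, hy, rfl⟩ := exists_piece (hsum1 p (mem_univ _))
    refine injective_of_chart hs ?_
    rw [hF]
    exact (hL1 i y hy).1
  · obtain ⟨i, y, hy, rfl⟩ := exists_piece (hsum0 p hp)
    refine abs_of_chart hs ?_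
    rw [hF]
    rcases S.cover _ hp with h | h
    · exact hLZ i y hy h
    · exact hLθ i y hy h.self_of_nhds
  · rw [hF]
    exact (hLm i x hx).2

end Crest

open Crest

theorem crestStmt (hK : KeepTwistStmt) (hGen : GenericStmt.{u}) : CrestStmt.{u} := by
  intro M _ _ _ _ _ g S
  classical
  have hcc : IsClosed S.h.crit := S.crit_finite.isClosed
  have hθfc : IsCompact (tsupport S.θf) := (isClosed_tsupport _).isCompact
  obtain ⟨N0, ψ0, a0, hψ0, -, ha0c, -, -, hsum0⟩ :=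
    exists_cover hθfc hcc.isOpen_compl fun p hp hpc => Set.disjoint_left.1 S.crit_off hpc hp
  choose C0 hC01 hC0 using fun i => exists_staticBd g S (ψ0 i) (ha0c i) fun x _ =>
    hψ0 i ⟨x, rfl⟩
  have hC1 : (1 : ℝ) ≤ 1 + ∑ j, |C0 j| :=
    le_add_of_nonneg_right (Finset.sum_nonneg fun j _ => abs_nonneg _)
  obtain ⟨μ, η0, hμ0, hμ1, hη0, hnear⟩ := exists_near hC1 g S
  refine ⟨η0, hη0, fun η hη hle f n c hfn hcap hc htsc hcpos hcZ _ hmet hgd => ?_⟩
  have hsb : ∀ i, ∀ x ∈ tsupport (a0 i), StaticBd g S (1 + ∑ j, |C0 j|) (ψ0 i) x :=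
    fun i x hx => (hC0 i x hx).mono g S (le_one_add_sum C0 i)
  -- where the slack is moved
  obtain ⟨c0, hc0, hc0'⟩ :=
    (isClosed_tsupport S.θ0).isCompact.exists_forall_le' hc.continuous.continuousOn (a := 0) hcpos
  set c1 := c0 / 2 with hc1
  have hc10 : 0 < c1 := half_pos hc0
  set O : Set M := interior {p | S.θf p = 1} ∩ {p | c1 < c p} with hO
  have hOo : IsOpen O := isOpen_interior.inter (isOpen_lt continuous_const hc.continuous)
  have hθ0O : tsupport S.θ0 ⊆ O := fun p hp =>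
    ⟨mem_interior_iff_mem_nhds.2 (S.θ0_supp p hp), by
      show c1 < c p; linarith [hc0' p hp]⟩
  have hOθf : O ⊆ tsupport S.θf := fun p hp => subset_tsupport _ (by
    have : S.θf p = 1 := interior_subset (s := {p | S.θf p = 1}) hp.1
    simp [this])
  obtain ⟨N, χ, a, C2, hC2, hχO, hχ, ha, hac, ha2, hsum, hbd⟩ :=
    exists_boxes g S hOo hθ0O (S.crit_off.mono_right hOθf)
  set D0 := c1 ^ 2 / (4 * ((N : ℝ) + 1)) with hD0def
  have hD0 : 0 < D0 := by positivity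
  set ε := min 1 (D0 / (2 * η * C2 ^ 2)) with hεdef
  have hε : 0 < ε := lt_min one_pos (by positivity)
  set δ := min (D0 / (16 * C2)) (ε * η / (2048 * C2)) with hδdef
  have hδ : 0 < δ := lt_min (by positivity) (by positivity)
  -- the crest and the perturbation
  obtain ⟨F1, hF1, hF1i, hF1a, hF1f, hF1m⟩ := exists_crest hC1 hμ0 hμ1 hη hfn ha0c hsum0 hsb
    (fun i => hnear η hη hle f n c hfn hcap hcZ hmet (ψ0 i) _ (ha0c i) (hsb i)) χ hac hδ
  have hKE : tsupport (Crest.bb S η) ⊆ {p | 1 / 2 ≤ S.θ0 p} := by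
    refine closure_minimal (fun p hp => ?_) (isClosed_le continuous_const S.θ0_smooth.continuous)
    show 1 / 2 ≤ S.θ0 p
    by_contra hlt
    push Not at hlt
    exact hp (by simp [Crest.bb, beta, Real.smoothTransition.zero_of_nonpos
      (show 2 * S.θ0 p - 1 ≤ 0 by linarith)])
  obtain ⟨F2, hF2, hF2i, hgood, hoff, hF2m⟩ := exists_perturb (g := g) (h := S.h) hGen hfn.1 hF1
    hF1i hθfc hgd hF1a (isClosed_tsupport (Crest.bb S η))
    (isOpen_lt continuous_const S.θ0_smooth.continuous : IsOpen {p | 1 / 4 < S.θ0 p})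
    (fun p hp => by
      show 1 / 4 < S.θ0 p
      have h : 1 / 2 ≤ S.θ0 p := hKE hp
      linarith) hF1f χ hac hδ
  -- the slack
  obtain ⟨Q, D, hQ, hD, hDb, hDs, hQid⟩ := exists_dec (g := g) hη hfn.1 hF2
    (fun p hp => hoff p fun h => by
      have h' : 1 / 4 < S.θ0 p := h
      linarith)
    hχ ha hac ha2 hsum hC2 hε (min_le_left _ _) hδ hD0
    ((le_div_iff₀ (by positivity)).1 (min_le_left _ _))
    ((le_div_iff₀ (by positivity)).1 (min_le_right _ _))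
    ((le_div_iff₀ (by positivity)).1 (min_le_right _ _)) hbd fun i x hx => by
      obtain ⟨ρ, h0, h1, h2⟩ := hF1m i x hx
      refine ⟨ρ, h0, h1.trans (bb_sq_le S hη.le _), ?_⟩
      have h3 := hF2m i x hx
      rw [show met (fun z => F2 (χ i z)) x - met (fun z => f (χ i z)) x
          - ρ • sq (S.h.d (χ i) x) =
          (met (fun z => F2 (χ i z)) x - met (fun z => F1 (χ i z)) x) +
          (met (fun z => F1 (χ i z)) x - met (fun z => f (χ i z)) x - ρ • sq (S.h.d (χ i) x)) by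
        abel]
      exact (norm_add_le _ _).trans (by linarith)
  -- the twists
  obtain ⟨f3, Dt, hf3, hf3i, hf3g, hDt, hDtb, hDts, hm3⟩ :=
    exists_keep_twists g S.h hK Q (fun j => ((hQ j).1.trans (hχO j.1)).trans hOθf)
      (fun j => (hQ j).2) hF2 hF2i hgood
      (ε := c1 ^ 2 / (4 * (3 * (N : ℝ) + 1))) (by positivity) Finset.univ
  obtain ⟨c', hc', hc's, hc'2⟩ :=
    exists_sqrt_add (D := fun p => D p - Dt p) hc (hD.sub hDt) hc10 (fun p hp => by
      by_cases h : Dt p = 0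
      · obtain ⟨i, hi⟩ := hDs p (by simpa [h] using hp)
        exact (hχO i hi).2
      · obtain ⟨j, hj⟩ := hDts p h
        exact (hχO j.1 ((hQ j).1 hj)).2) fun p => by
      refine (abs_sub _ _).trans ((add_le_add (hDb p) (hDtb p)).trans ?_)
      have b1 : (N : ℝ) * D0 ≤ c1 ^ 2 / 4 := by
        rw [hD0def, mul_div_assoc', div_le_div_iff₀ (by positivity) four_pos]
        linarith [sq_nonneg c1]
      have b2 : 3 * (N : ℝ) * (c1 ^ 2 / (4 * (3 * (N : ℝ) + 1))) ≤ c1 ^ 2 / 4 := by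
        rw [mul_div_assoc', div_le_div_iff₀ (by positivity) four_pos]
        linarith [sq_nonneg c1]
      simp only [Finset.card_univ, Fintype.card_prod, Fintype.card_fin, Nat.cast_mul,
        Nat.cast_ofNat]
      linarith
  refine ⟨f3, c', ({p | GdAt f3 p} ∩ {p | Abs g S.h f3 p}) ∩ S.h.critᶜ, hf3, hc',
    ((isOpen_gdAt hf3).inter (isOpen_abs hf3 hf3i)).inter hcc.isOpen_compl,
    fun p hp => ⟨hf3g p (htsc (hc's hp)),
      fun hpc => Set.disjoint_left.1 S.crit_off hpc (htsc (hc's hp))⟩,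
    Set.disjoint_left.2 fun p hp => hp.2, hf3i, fun φ x => ?_,
    fun φ x hx => ⟨hx.1.1, hx.1.2 φ x rfl⟩⟩
  rw [hc'2, hm3 φ x, hmet φ x, add_right_comm, hQid φ x]
  module

end Vale.Agent.P205F
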