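import Vale.Agent.P205F.Crest.Frame
import Vale.Agent.P205F.Main.Step

/-!
# P205, the crest: the second fundamental form along the kernel and the metric

Near the critical points all constants come from the metric, the shape and the cap bounds, so the
threshold for `η` is fixed before the map; away from them the frequency is chosen after the map.
-/

namespace Vale.Agent.P205F.Crest

open scoped Manifold ContDiff RealInnerProductSpace Topology
open Set Filter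

/-! ### The plane -/

lemma abs_bil_le (q : S3) (a b : E2) : |bil q a b| ≤ 4 * ‖q‖ * ‖a‖ * ‖b‖ := by
  have hq : ∀ i, |q i| ≤ ‖q‖ := fun i => by simpa [Real.norm_eq_abs] using norm_le_pi_norm q i
  have hv : ∀ (v : E2) i, |v i| ≤ ‖v‖ := fun v i => by
    simpa [Real.norm_eq_abs] using PiLp.norm_apply_le v i
  have h : ∀ i j k, |q i * a j * b k| ≤ ‖q‖ * ‖a‖ * ‖b‖ := fun i j k => by
    rw [abs_mul, abs_mul]
    exact mul_le_mul (mul_le_mul (hq i) (hv a j) (abs_nonneg _) (norm_nonneg _)) (hv b k)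
      (abs_nonneg _) (by positivity)
  have e : bil q a b = q 0 * a 0 * b 0 + q 1 * a 0 * b 1 + q 1 * a 1 * b 0 + q 2 * a 1 * b 1 := by
    simp [bil]; ring
  rw [e, abs_le]
  constructor <;> linarith [abs_le.1 (h 0 0 0), abs_le.1 (h 1 0 1), abs_le.1 (h 1 1 0),
    abs_le.1 (h 2 1 1)]

lemma polar_bound {β : E2 →L[ℝ] E2 →L[ℝ] ℝ} (hs : ∀ v w, β v w = β w v) {K : ℝ}
    (h : ∀ w, |β w w| ≤ K * ‖w‖ ^ 2) (v u : E2) : |β v u| ≤ K * ‖v‖ * ‖u‖ := by
  rcases eq_or_ne u 0 with rfl | hu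
  · simp
  rcases eq_or_ne v 0 with rfl | hv
  · simp
  have hu' : 0 < ‖u‖ := norm_pos_iff.2 hu
  have hv' : 0 < ‖v‖ := norm_pos_iff.2 hv
  set p := ‖u‖ • v with hp
  set q := ‖v‖ • u with hq
  have hsum : |β p q| * 4 ≤ |β (p + q) (p + q)| + |β (p - q) (p - q)| := by
    have e : β p q * 4 = β (p + q) (p + q) - β (p - q) (p - q) := by
      simp only [map_add, map_sub, add_apply, sub_apply, hs q p]; ring
    rw [show |β p q| * 4 = |β p q * 4| by rw [abs_mul]; norm_num, e]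
    exact abs_sub _ _
  have hn : ‖p‖ = ‖u‖ * ‖v‖ ∧ ‖q‖ = ‖u‖ * ‖v‖ := by
    simp [hp, hq, norm_smul, mul_comm]
  have hpar := parallelogram_law_with_norm ℝ p q
  have h1 : |β p q| * 4 ≤ 4 * K * (‖u‖ * ‖v‖) * (‖u‖ * ‖v‖) := by
    refine hsum.trans ((add_le_add (h _) (h _)).trans (le_of_eq ?_))
    rw [hn.1, hn.2] at hpar
    linear_combination K * hpar
  have e : β p q = ‖u‖ * ‖v‖ * β v u := by simp [hp, hq]; ring
  rw [e, abs_mul, abs_of_pos (mul_pos hu' hv')] at h1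
  have h2 : (‖u‖ * ‖v‖) * (|β v u| - K * ‖v‖ * ‖u‖) ≤ 0 := by linarith
  by_contra hc
  push Not at hc
  linarith [mul_pos (mul_pos hu' hv') (sub_pos.2 hc)]

lemma exists_range_of_nrm_eq_zero {f : E2 → R4} {x : E2} {w : R4} (h : nrm f x w = 0) :
    ∃ v, fderiv ℝ f x v = w := by
  have hm : w ∈ (LinearMap.range (fderiv ℝ f x).toLinearMap)ᗮᗮ :=
    (Submodule.starProjection_apply_eq_zero_iff _).1 h
  rw [Submodule.orthogonal_orthogonal] at hm
  exact hm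

lemma inner_deriv_zero {p q : E2 → R4} {c : ℝ} (hp : ContDiff ℝ ∞ p) (hq : ContDiff ℝ ∞ q)
    (h : ∀ z, ⟪p z, q z⟫ = c) (x v : E2) :
    ⟪fderiv ℝ p x v, q x⟫ + ⟪p x, fderiv ℝ q x v⟫ = 0 := by
  have e := fderiv_inner_apply ℝ (hp.differentiable (by simp) x) (hq.differentiable (by simp) x) v
  rw [funext h, fderiv_fun_const] at e
  simp at e
  linarith

lemma contDiff_D {X : Type*} [NormedAddCommGroup X] [NormedSpace ℝ X] {f : E2 → X}
    (hf : ContDiff ℝ ∞ f) (v : E2) : ContDiff ℝ ∞ fun z => fderiv ℝ f z v :=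
  (hf.fderiv_right (m := ∞) (by exact_mod_cast le_top)).clm_apply contDiff_const

lemma D2_apply {X : Type*} [NormedAddCommGroup X] [NormedSpace ℝ X] {f : E2 → X}
    (hf : ContDiff ℝ ∞ f) (x v w : E2) :
    fderiv ℝ (fun z => fderiv ℝ f z w) x v = fderiv ℝ (fderiv ℝ f) x v w := by
  rw [fderiv_clm_apply ((hf.fderiv_right (m := ∞) (by exact_mod_cast le_top)).differentiable
    (by simp) x) (differentiableAt_const _)]
  simp

lemma D2_symm {f : E2 → R4} (hf : ContDiff ℝ ∞ f) (x v w : E2) :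
    fderiv ℝ (fun z => fderiv ℝ f z w) x v = fderiv ℝ (fun z => fderiv ℝ f z v) x w := by
  rw [D2_apply hf, D2_apply hf]
  exact hf.contDiffAt.isSymmSndFDerivAt (by simp; exact WithTop.coe_le_coe.2 le_top) v w

/-- Tangential second derivatives come from the metric. -/
lemma tangential_bound {f : E2 → R4} {Φ : E2 → S3} (hf : ContDiff ℝ ∞ f)
    (hΦ : ContDiff ℝ ∞ Φ) {x : E2} (h : met f =ᶠ[𝓝 x] Φ) (v u : E2) :
    |⟪fderiv ℝ (fun z => fderiv ℝ f z v) x v, fderiv ℝ f x u⟫| ≤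
      6 * ‖fderiv ℝ Φ x‖ * ‖v‖ ^ 2 * ‖u‖ := by
  have hd : ∀ a b d : E2, ⟪fderiv ℝ (fun z => fderiv ℝ f z a) x d, fderiv ℝ f x b⟫
      + ⟪fderiv ℝ f x a, fderiv ℝ (fun z => fderiv ℝ f z b) x d⟫ = bil (fderiv ℝ Φ x d) a b := by
    intro a b d
    have h1 : (fun z => ⟪fderiv ℝ f z a, fderiv ℝ f z b⟫) =ᶠ[𝓝 x] fun z => bil (Φ z) a b :=
      h.mono fun z hz => by simp [← bil_met, hz]
    have e := fderiv_inner_apply ℝ ((contDiff_D hf a).differentiable (by simp) x)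
      ((contDiff_D hf b).differentiable (by simp) x) d
    rw [h1.fderiv_eq] at e
    have hΦd : ∀ i, HasFDerivAt (fun z => Φ z i)
        ((ContinuousLinearMap.proj i).comp (fderiv ℝ Φ x)) x :=
      fun i => hasFDerivAt_pi'.1 (hΦ.differentiable (by simp) x).hasFDerivAt i
    have hb : HasFDerivAt (fun z => Φ z 0 * (a 0 * b 0) + Φ z 1 * (a 0 * b 1 + a 1 * b 0)
        + Φ z 2 * (a 1 * b 1)) _ x :=
      (((hΦd 0).mul_const _).add ((hΦd 1).mul_const _)).add ((hΦd 2).mul_const _)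
    have e2 : fderiv ℝ (fun z => bil (Φ z) a b) x d = bil (fderiv ℝ Φ x d) a b := by
      simp only [bil]
      rw [hb.fderiv]
      simp
      ring
    rw [e2] at e
    linarith
  have h1 := hd v u v
  have h2 := hd v v u
  rw [D2_symm hf x v u] at h1
  have b1 := abs_bil_le (fderiv ℝ Φ x v) v u
  have b2 := abs_bil_le (fderiv ℝ Φ x u) v v
  have n1 : ‖fderiv ℝ Φ x v‖ * ‖v‖ * ‖u‖ ≤ ‖fderiv ℝ Φ x‖ * ‖v‖ ^ 2 * ‖u‖ := by
    calc _ ≤ ‖fderiv ℝ Φ x‖ * ‖v‖ * ‖v‖ * ‖u‖ := by gcongr; exact (fderiv ℝ Φ x).le_opNorm v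
      _ = _ := by ring
  have n2 : ‖fderiv ℝ Φ x u‖ * ‖v‖ * ‖v‖ ≤ ‖fderiv ℝ Φ x‖ * ‖v‖ ^ 2 * ‖u‖ := by
    calc _ ≤ ‖fderiv ℝ Φ x‖ * ‖u‖ * ‖v‖ * ‖v‖ := by gcongr; exact (fderiv ℝ Φ x).le_opNorm u
      _ = _ := by ring
  rw [real_inner_comm (fderiv ℝ f x v) (fderiv ℝ (fun z => fderiv ℝ f z v) x u)] at h2
  rw [abs_le] at b1 b2 ⊢
  rw [real_inner_comm (fderiv ℝ (fun z => fderiv ℝ f z v) x u) (fderiv ℝ f x v)] at *
  constructor <;> linarith

/-- Inner products of vectors of the size `O(1)` and `O(1/M)`. -/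
lemma inner_expand {a b a' b' p q : R4} {L R : ℝ} (ha : ‖a‖ ≤ L) (hb : ‖b‖ ≤ L) (hp : ‖p‖ ≤ L)
    (hq : ‖q‖ ≤ L) (ha' : ‖a'‖ ≤ R) (hb' : ‖b'‖ ≤ R) :
    |⟪a + p + a', b + q + b'⟫ - ⟪a + p, b + q⟫| ≤ 4 * L * R + R * R := by
  have hR : 0 ≤ R := (norm_nonneg _).trans ha'
  have e : ⟪a + p + a', b + q + b'⟫ - ⟪a + p, b + q⟫ =
      ⟪a + p, b'⟫ + ⟪a', b + q⟫ + ⟪a', b'⟫ := by
    simp [inner_add_left, inner_add_right]; ring
  rw [e]
  have h1 : ‖a + p‖ ≤ 2 * L := (norm_add_le _ _).trans (by linarith)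
  have h2 : ‖b + q‖ ≤ 2 * L := (norm_add_le _ _).trans (by linarith)
  have hL : 0 ≤ 2 * L := (norm_nonneg _).trans h1
  have i1 := (abs_real_inner_le_norm (a + p) b').trans (mul_le_mul h1 hb' (norm_nonneg _) hL)
  have i2 := (abs_real_inner_le_norm a' (b + q)).trans (mul_le_mul ha' h2 (norm_nonneg _) hR)
  have i3 := (abs_real_inner_le_norm a' b').trans (mul_le_mul ha' hb' (norm_nonneg _) hR)
  rw [abs_le] at *
  constructor <;> linarith

lemma norm_B1_le {n m : R4} (hn : ‖n‖ = 1) (hm : ‖m‖ = 1) {μ : ℝ} (hμ : |μ| ≤ 1) (t : ℝ) :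
    ‖B1 μ t n m‖ ≤ 2 := by
  refine (norm_add_le _ _).trans ?_
  rw [norm_smul, norm_smul, hn, hm, mul_one, mul_one, Real.norm_eq_abs, Real.norm_eq_abs, abs_mul]
  have h1 : |μ / 2| * |Real.sin (2 * t)| ≤ 1 * 1 :=
    mul_le_mul (by rw [abs_div, abs_of_pos (two_pos (α := ℝ))]; linarith)
      (Real.abs_sin_le_one _) (abs_nonneg _) zero_le_one
  linarith [Real.abs_cos_le_one t]

/-! ### Constants fixed before the map -/

variable {M : Type*} [TopologicalSpace M] [ChartedSpace E2 M] [IsManifold (𝓡 2) ∞ M]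
  (g : Metric M) (S : Shape M)

/-- The amplitude of the crest before scaling. -/
noncomputable def beta (p : M) : ℝ := Real.smoothTransition (2 * S.θ0 p - 1) / 4

lemma beta_smooth : ContMDiff (𝓡 2) 𝓘(ℝ, ℝ) ∞ (beta S) :=
  ((contDiff_id.div_const 4).comp (Real.smoothTransition.contDiff.comp
    ((contDiff_const.mul contDiff_id).sub contDiff_const)) :
      ContDiff ℝ ∞ fun t : ℝ => Real.smoothTransition (2 * t - 1) / 4).comp_contMDiff S.θ0_smooth

lemma beta_nonneg (p : M) : 0 ≤ beta S p :=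
  div_nonneg (Real.smoothTransition.nonneg _) (by norm_num)

lemma beta_le (p : M) : beta S p ≤ S.θ0 p / 2 := by
  have h := S.θ0_range p
  by_cases h2 : 1 / 2 ≤ S.θ0 p
  · have := Real.smoothTransition.le_one (2 * S.θ0 p - 1)
    simp only [beta]
    linarith
  · rw [beta, Real.smoothTransition.zero_of_nonpos (by linarith), zero_div]
    linarith [h.1]

/-- The part of the slack known on `Z`. -/
noncomputable def slackZ (ψ : Chart M) (z : E2) : S3 :=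
  S.θf (ψ z) ^ 2 • sq (S.h.nu g ψ z) + S.θ0 (ψ z) ^ 2 • sq (S.h.d ψ z)

/-- Bounds coming from the metric and the shape. -/
structure StaticBd (C : ℝ) (ψ : Chart M) (x : E2) : Prop where
  low : ∀ w, ‖w‖ ^ 2 ≤ C * bil (gc g ψ x) w w
  high : ∀ w, bil (gc g ψ x) w w ≤ C * ‖w‖ ^ 2
  len : 1 ≤ C * bil (gc g ψ x) (S.h.efin g ψ x) (S.h.efin g ψ x)
  vle : ‖S.h.efin g ψ x‖ ≤ C
  dH : ‖fderiv ℝ (S.h.h ψ) x‖ ≤ C
  dHv : 1 ≤ C * fderiv ℝ (S.h.h ψ) x (S.h.efin g ψ x) ^ 2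
  ddH : |fderiv ℝ (fun z => fderiv ℝ (S.h.h ψ) z (S.h.efin g ψ x)) x (S.h.efin g ψ x)| ≤ C
  dG : ‖fderiv ℝ (fun z => gc g ψ z) x‖ ≤ C
  dQ : ‖fderiv ℝ (slackZ g S ψ) x‖ ≤ C
  dbeta : ‖fderiv ℝ (fun z => beta S (ψ z)) x‖ ≤ C
  sqν : ‖sq (S.h.nu g ψ x)‖ ≤ C
  sqd : ‖sq (S.h.d ψ x)‖ ≤ C

lemma StaticBd.mono {C C' : ℝ} {ψ : Chart M} {x : E2} (h : StaticBd g S C ψ x) (hC : C ≤ C') :
    StaticBd g S C' ψ x := by
  have hb : ∀ w, 0 ≤ bil (gc g ψ x) w w := fun w => by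
    rcases eq_or_ne w 0 with rfl | hw
    · simp [bil]
    · exact (bil_gc_pos g ψ x hw).le
  exact
    { low := fun w => (h.low w).trans (mul_le_mul_of_nonneg_right hC (hb w))
      high := fun w => (h.high w).trans (mul_le_mul_of_nonneg_right hC (sq_nonneg _))
      len := h.len.trans (mul_le_mul_of_nonneg_right hC (hb _))
      vle := h.vle.trans hC
      dH := h.dH.trans hC
      dHv := h.dHv.trans (mul_le_mul_of_nonneg_right hC (sq_nonneg _))
      ddH := h.ddH.trans hC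
      dG := h.dG.trans hC
      dQ := h.dQ.trans hC
      dbeta := h.dbeta.trans hC
      sqν := h.sqν.trans hC
      sqd := h.sqd.trans hC }

lemma dH_efin_pos (h : Twisted M) (ψ : Chart M) (x : E2) (hx : fderiv ℝ (h.h ψ) x ≠ 0) :
    0 < fderiv ℝ (h.h ψ) x (h.efin g ψ x) := by
  have hs : 0 < Real.sqrt (gc g ψ x 0 * gc g ψ x 2 - gc g ψ x 1 ^ 2) :=
    Real.sqrt_pos.2 (gc_pos g ψ x).2.2
  have hw : h.d ψ x 1 • ev 0 - h.d ψ x 0 • ev 1 ≠ 0 := fun e => by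
    refine hx ?_
    have e0 := congrArg (fun v : E2 => v 0) e
    have e1 := congrArg (fun v : E2 => v 1) e
    simp [ev, Twisted.d] at e0 e1
    ext v
    rw [apply_eq_pd]
    simp [e0, e1]
  have hp := bil_gc_pos g ψ x hw
  have e : fderiv ℝ (h.h ψ) x (h.efin g ψ x) = bil (gc g ψ x) (h.d ψ x 1 • ev 0 - h.d ψ x 0 • ev 1)
      (h.d ψ x 1 • ev 0 - h.d ψ x 0 • ev 1)
      / Real.sqrt (gc g ψ x 0 * gc g ψ x 2 - gc g ψ x 1 ^ 2) := by
    rw [apply_eq_pd]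
    simp [Twisted.efin, Twisted.nu, Twisted.d, bil, ev]
    field_simp
    ring
  rw [e]
  exact div_pos hp hs

lemma contDiff_efin (h : Twisted M) (ψ : Chart M) : ContDiff ℝ ∞ (h.efin g ψ) :=
  ((h.contDiff_nu g ψ 1).neg.smul contDiff_const).add ((h.contDiff_nu g ψ 0).smul contDiff_const)

lemma contDiff_sq {p : E2 → Fin 2 → ℝ} (hp : ∀ i, ContDiff ℝ ∞ fun z => p z i) :
    ContDiff ℝ ∞ fun z => sq (p z) :=
  contDiff_pi.2 fun i => by
    fin_cases i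
    · simpa [sq] using (hp 0).pow 2
    · simpa [sq] using (hp 0).mul (hp 1)
    · simpa [sq] using (hp 1).pow 2

lemma contDiff_slackZ (ψ : Chart M) : ContDiff ℝ ∞ (slackZ g S ψ) :=
  (((ψ.contDiff_comp S.θf_smooth).pow 2).smul (contDiff_sq (S.h.contDiff_nu g ψ))).add
    (((ψ.contDiff_comp S.θ0_smooth).pow 2).smul (contDiff_sq fun i => contDiff_pd (S.h.smooth ψ) i))

lemma continuous_bil_diag (ψ : Chart M) :
    Continuous fun p : E2 × E2 => bil (gc g ψ p.1) p.2 p.2 := by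
  have h0 : ∀ i, Continuous fun p : E2 × E2 => gc g ψ p.1 i := fun i =>
    (contDiff_gc g ψ i).continuous.comp continuous_fst
  have h2 : ∀ i, Continuous fun p : E2 × E2 => p.2 i := fun i =>
    (PiLp.continuous_apply 2 _ i).comp continuous_snd
  simp only [bil]
  exact (((h0 0).mul ((h2 0).mul (h2 0))).add ((h0 1).mul
    (((h2 0).mul (h2 1)).add ((h2 1).mul (h2 0))))).add ((h0 2).mul ((h2 1).mul (h2 1)))

lemma exists_two_sided (ψ : Chart M) {K : Set E2} (hK : IsCompact K) :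
    ∃ A, 0 ≤ A ∧ ∀ x ∈ K, ∀ w, ‖w‖ ^ 2 ≤ A * bil (gc g ψ x) w w ∧
      bil (gc g ψ x) w w ≤ A * ‖w‖ ^ 2 := by
  have hS : IsCompact (K ×ˢ Metric.sphere (0 : E2) 1) := hK.prod (isCompact_sphere 0 1)
  have hbil := continuous_bil_diag g ψ
  obtain ⟨lo, hlo, hlo'⟩ := hS.exists_forall_le' hbil.continuousOn (a := 0) fun p hp =>
    bil_gc_pos g ψ p.1 fun h0 => by simp [h0] at hp
  obtain ⟨hi, hhi⟩ := hS.exists_bound_of_continuousOn hbil.continuousOn
  have i1 := inv_pos.2 hlo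
  refine ⟨lo⁻¹ + |hi|, by positivity, fun x hx w => ?_⟩
  rcases eq_or_ne w 0 with rfl | hw
  · simp [bil]
  have hp : (x, ‖w‖⁻¹ • w) ∈ K ×ˢ Metric.sphere (0 : E2) 1 := ⟨hx, by simp [norm_smul, hw]⟩
  have e : bil (gc g ψ x) w w = ‖w‖ ^ 2 * bil (gc g ψ x) (‖w‖⁻¹ • w) (‖w‖⁻¹ • w) := by
    have : ‖w‖ ≠ 0 := norm_ne_zero_iff.2 hw
    simp [bil]
    field_simp
  have hb := bil_gc_pos g ψ x hw
  have hge : lo * ‖w‖ ^ 2 ≤ bil (gc g ψ x) w w := by
    rw [e, mul_comm lo]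
    exact mul_le_mul_of_nonneg_left (hlo' _ hp) (sq_nonneg _)
  constructor
  · rw [← le_div_iff₀' hlo, div_eq_inv_mul] at hge
    exact hge.trans (mul_le_mul_of_nonneg_right (le_add_of_nonneg_right (abs_nonneg _)) hb.le)
  · rw [e, mul_comm (lo⁻¹ + |hi|)]
    refine mul_le_mul_of_nonneg_left ((le_abs_self _).trans ((hhi _ hp).trans ?_)) (sq_nonneg _)
    linarith [le_abs_self hi]

lemma exists_upper (ψ : Chart M) {K : Set E2} (hK : IsCompact K) :
    ∃ B, 0 ≤ B ∧ ∀ x ∈ K, ‖S.h.efin g ψ x‖ ≤ B ∧ ‖fderiv ℝ (S.h.h ψ) x‖ ≤ B ∧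
      |fderiv ℝ (fun z => fderiv ℝ (S.h.h ψ) z (S.h.efin g ψ x)) x (S.h.efin g ψ x)| ≤ B ∧
      ‖fderiv ℝ (fun z => gc g ψ z) x‖ ≤ B ∧ ‖fderiv ℝ (slackZ g S ψ) x‖ ≤ B ∧
      ‖fderiv ℝ (fun z => beta S (ψ z)) x‖ ≤ B ∧ ‖sq (S.h.nu g ψ x)‖ ≤ B ∧
      ‖sq (S.h.d ψ x)‖ ≤ B := by
  have hv := (contDiff_efin g S.h ψ).continuous
  have hH := S.h.smooth ψ
  have hDD : Continuous fun x =>
      fderiv ℝ (fderiv ℝ (S.h.h ψ)) x (S.h.efin g ψ x) (S.h.efin g ψ x) :=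
    ((((hH.fderiv_right (m := ∞) (by exact_mod_cast le_top)).continuous_fderiv (by simp))).clm_apply
      hv).clm_apply hv
  have hc : Continuous fun x => ‖S.h.efin g ψ x‖ + ‖fderiv ℝ (S.h.h ψ) x‖
      + |fderiv ℝ (fderiv ℝ (S.h.h ψ)) x (S.h.efin g ψ x) (S.h.efin g ψ x)|
      + ‖fderiv ℝ (fun z => gc g ψ z) x‖ + ‖fderiv ℝ (slackZ g S ψ) x‖
      + ‖fderiv ℝ (fun z => beta S (ψ z)) x‖ + ‖sq (S.h.nu g ψ x)‖ + ‖sq (S.h.d ψ x)‖ :=
    (((((((hv.norm.add (hH.continuous_fderiv (by simp)).norm).add hDD.abs).add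
      ((contDiff_gc' g ψ).continuous_fderiv (by simp)).norm).add
      ((contDiff_slackZ g S ψ).continuous_fderiv (by simp)).norm).add
      ((ψ.contDiff_comp (beta_smooth S)).continuous_fderiv (by simp)).norm).add
      (contDiff_sq (S.h.contDiff_nu g ψ)).continuous.norm).add
      (contDiff_sq fun i => contDiff_pd (S.h.smooth ψ) i).continuous.norm)
  obtain ⟨B, hB⟩ := hK.exists_bound_of_continuousOn hc.continuousOn
  refine ⟨max B 0, le_max_right _ _, fun x hx => ?_⟩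
  have h := ((le_abs_self _).trans (hB x hx)).trans (le_max_left B 0)
  rw [D2_apply hH]
  have a1 := norm_nonneg (S.h.efin g ψ x)
  have a2 := norm_nonneg (fderiv ℝ (S.h.h ψ) x)
  have a3 := abs_nonneg (fderiv ℝ (fderiv ℝ (S.h.h ψ)) x (S.h.efin g ψ x) (S.h.efin g ψ x))
  have a4 := norm_nonneg (fderiv ℝ (fun z => gc g ψ z) x)
  have a5 := norm_nonneg (fderiv ℝ (slackZ g S ψ) x)
  have a6 := norm_nonneg (fderiv ℝ (fun z => beta S (ψ z)) x)
  have a7 := norm_nonneg (sq (S.h.nu g ψ x))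
  have a8 := norm_nonneg (sq (S.h.d ψ x))
  refine ⟨?_, ?_, ?_, ?_, ?_, ?_, ?_, ?_⟩ <;> linarith

lemma exists_staticBd (ψ : Chart M) {K : Set E2} (hK : IsCompact K)
    (hc : ∀ x ∈ K, ψ x ∉ S.h.crit) : ∃ C, 1 ≤ C ∧ ∀ x ∈ K, StaticBd g S C ψ x := by
  have hne : ∀ x ∈ K, fderiv ℝ (S.h.h ψ) x ≠ 0 := fun x hx h0 =>
    hc x hx ((S.h.mem_crit_iff ψ x).2 h0)
  have hv := (contDiff_efin g S.h ψ).continuous
  obtain ⟨A, hA, hA'⟩ := exists_two_sided g ψ hK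
  obtain ⟨B, hB, hB'⟩ := exists_upper g S ψ hK
  obtain ⟨l0, hl0, hl0'⟩ := hK.exists_forall_le'
    ((continuous_bil_diag g ψ).comp (continuous_id.prodMk hv)).continuousOn (a := 0) fun x hx =>
    bil_gc_pos g ψ x fun h0 => by
      have hp := dH_efin_pos g S.h ψ x (hne x hx)
      simp only [id] at h0
      simp [h0] at hp
  obtain ⟨d0, hd0, hd0'⟩ := hK.exists_forall_le'
    ((((S.h.smooth ψ).continuous_fderiv (by simp)).clm_apply hv).pow 2).continuousOn (a := 0)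
    fun x hx => pow_pos (dH_efin_pos g S.h ψ x (hne x hx)) 2
  have i2 := inv_pos.2 hl0
  have i3 := inv_pos.2 hd0
  refine ⟨1 + A + B + l0⁻¹ + d0⁻¹, by linarith, fun x hx => ?_⟩
  obtain ⟨b1, b2, b3, b4, b5, b6, b7, b8⟩ := hB' x hx
  exact
    { low := fun w => (hA' x hx w).1.trans (mul_le_mul_of_nonneg_right (by linarith) (by
        rcases eq_or_ne w 0 with rfl | hw
        · simp [bil]
        · exact (bil_gc_pos g ψ x hw).le))
      high := fun w => (hA' x hx w).2.trans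
        (mul_le_mul_of_nonneg_right (by linarith) (sq_nonneg _))
      len := by
        have h := mul_le_mul (show l0⁻¹ ≤ 1 + A + B + l0⁻¹ + d0⁻¹ by linarith) (hl0' x hx) hl0.le
          (by linarith)
        rwa [inv_mul_cancel₀ hl0.ne'] at h
      vle := b1.trans (by linarith)
      dH := b2.trans (by linarith)
      dHv := by
        have h := mul_le_mul (show d0⁻¹ ≤ 1 + A + B + l0⁻¹ + d0⁻¹ by linarith) (hd0' x hx) hd0.le
          (by linarith)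
        rwa [inv_mul_cancel₀ hd0.ne'] at h
      ddH := b3.trans (by linarith)
      dG := b4.trans (by linarith)
      dQ := b5.trans (by linarith)
      dbeta := b6.trans (by linarith)
      sqν := b7.trans (by linarith)
      sqd := b8.trans (by linarith) }

end Vale.Agent.P205F.Crest
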