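import Vale.Agent.P205F.Crest.Point

/-!
# P205, the crest: choice of the amplitude and of the frequency
-/

namespace Vale.Agent.P205F.Crest

open scoped Manifold ContDiff RealInnerProductSpace Topology
open Set Filter

variable {M : Type*} [TopologicalSpace M] [ChartedSpace E2 M] [IsManifold (𝓡 2) ∞ M]
  {g : Metric M} {S : Shape M}

lemma abs_dHv_le {C : ℝ} {ψ : Chart M} {x v : E2} (hH : ‖fderiv ℝ (S.h.h ψ) x‖ ≤ C)
    (hv : ‖v‖ ≤ C) : |fderiv ℝ (S.h.h ψ) x v| ≤ C ^ 2 := by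
  have := (fderiv ℝ (S.h.h ψ) x).le_of_opNorm_le hH v
  rw [Real.norm_eq_abs] at this
  refine this.trans ?_
  rw [pow_two]
  exact mul_le_mul_of_nonneg_left hv ((norm_nonneg _).trans hH)

lemma fderiv_smul_apply' {b : E2 → ℝ} {m : E2 → R4} (hb : ContDiff ℝ ∞ b) (hm : ContDiff ℝ ∞ m)
    (x v : E2) :
    fderiv ℝ (fun z => b z • m z) x v = b x • fderiv ℝ m x v + fderiv ℝ b x v • m x := by
  rw [((hb.differentiable (by simp) x).hasFDerivAt.fun_smul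
    (hm.differentiable (by simp) x).hasFDerivAt).fderiv]
  simp

lemma near_choice {C η : ℝ} (hC : 1 ≤ C) (hη : 0 < η) (hη1 : η ≤ 1 / (16 * C ^ 2))
    {μ κ' C0 a1 Kd Kb e0 : ℝ} (hκ' : κ' = S.κ / C) (hC0 : C0 = |S.B| * C ^ 3 + 24 * C ^ 4)
    (ha1 : a1 = 1 / (2 * C)) (hμ : μ = κ' / (4 * (C0 + κ')))
    (hKd : Kd = 2 * |S.B| * C ^ 3 + |S.B| * C ^ 2)
    (hKb : Kb = 2 * C ^ 2 + 6 * C ^ 2 * (Kd * C + C ^ 2) + C ^ 2)
    (he0 : e0 ≤ a1 / 2 ∧ e0 * (2 + 4 * (C0 + e0) / a1) ≤ κ' / 4)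
    (hηb : Real.sqrt η * Kb ≤ e0 / 2) {f n : M → R4} {c : M → ℝ} (hfn : Framed f n)
    (hcap : CapBd g S.h S.Z S.κ S.B f n) (hc : ∀ p ∈ S.Z, c p ^ 2 = η * S.θf p ^ 2)
    (hmet : ∀ φ x, gc g φ x = met (fun z => f (φ z)) x + c (φ x) ^ 2 • sq (S.h.nu g φ x)
      + (η * S.θ0 (φ x) ^ 2) • sq (S.h.d φ x))
    {ψ : Chart M} {x : E2} (hbd : StaticBd g S C ψ x) (hx : ψ x ∈ S.Z) {L Cf : ℝ} (hL : 0 < L)
    (hLCf : 2 * Cf / L ≤ e0 / 2)
    (hs : SizeBd μ (fun z => f (ψ z)) (fun z => n (ψ z)) (nm f n ψ) (fun z => bb S η (ψ z))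
      (S.h.h ψ) x (S.h.efin g ψ x) Cf) :
    II (loopIn S.h μ L f n (bb S η) ψ) x (S.h.efin g ψ x) ≠ 0 := by
  set v := S.h.efin g ψ x with hv
  intro h0
  obtain ⟨u, hu⟩ := exists_range_of_nrm_eq_zero h0
  obtain ⟨hlow, hn0, hm0, hT0, hdn, hdm⟩ := near_point hC hη hη1 hfn hcap hc hmet hbd hx
  obtain ⟨hmm, hnn, hnm, hTo⟩ := nm_props hfn ψ x
  have hC' : 0 < C := by linarith
  have hn1 : ‖n (ψ x)‖ = 1 := hfn.2.2.1 _
  have hm1 : ‖nm f n ψ x‖ = 1 := by rw [norm_eq_sqrt_real_inner, hmm, Real.sqrt_one]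
  have hκ0 : 0 < κ' := by rw [hκ']; exact div_pos S.κ_pos hC'
  have hC00 : 0 ≤ C0 := by rw [hC0]; positivity
  have hKd0 : 0 ≤ Kd := by rw [hKd]; positivity
  have hμ0 : 0 < μ := by rw [hμ]; positivity
  have hμ1 : |μ| ≤ 1 := by
    rw [abs_of_pos hμ0, hμ, div_le_one (by positivity)]
    linarith
  have hbS : ContDiff ℝ ∞ fun z => bb S η (ψ z) := ψ.contDiff_comp (bb_smooth S η)
  have hf' := ψ.contDiff_comp hfn.1
  have hn' := ψ.contDiff_comp hfn.2.1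
  have hβ : beta S (ψ x) ≤ C := (beta_le S _).trans (by linarith [(S.θ0_range (ψ x)).2])
  have hs0 := Real.sqrt_nonneg η
  have hb : |bb S η (ψ x)| ≤ Real.sqrt η * C := by
    rw [bb, abs_mul, abs_of_nonneg hs0, abs_of_nonneg (beta_nonneg S _)]
    exact mul_le_mul_of_nonneg_left hβ hs0
  have hdb : |fderiv ℝ (fun z => bb S η (ψ z)) x v| ≤ Real.sqrt η * C ^ 2 := by
    simp only [bb]
    rw [fderiv_const_mul ((ψ.contDiff_comp (beta_smooth S)).differentiable (by simp) x),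
      smul_apply, smul_eq_mul, abs_mul, abs_of_nonneg hs0]
    refine mul_le_mul_of_nonneg_left ?_ hs0
    have := (fderiv ℝ (fun z => beta S (ψ z)) x).le_of_opNorm_le hbd.dbeta v
    rw [Real.norm_eq_abs] at this
    refine this.trans ?_
    rw [pow_two]
    exact mul_le_mul_of_nonneg_left hbd.vle hC'.le
  have hX := fderiv_smul_apply' hbS (contDiff_nm hfn ψ) x v
  have hY : fderiv ℝ (fun z => (-(μ / 4) * bb S η (ψ z)) • n (ψ z)) x v =
      (-(μ / 4) * bb S η (ψ x)) • fderiv ℝ (fun z => n (ψ z)) x v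
        + (-(μ / 4) * fderiv ℝ (fun z => bb S η (ψ z)) x v) • n (ψ x) := by
    rw [fderiv_smul_apply' (contDiff_const.mul hbS) hn',
      fderiv_const_mul (hbS.differentiable (by simp) x)]
    simp
  have hlowv : ‖L⁻¹ • low μ L (fun z => n (ψ z)) (nm f n ψ) (fun z => bb S η (ψ z)) (S.h.h ψ) x v‖ ≤
      2 * Cf / L := by
    rw [norm_smul, norm_inv, Real.norm_eq_abs, abs_of_pos hL, div_eq_inv_mul]
    exact mul_le_mul_of_nonneg_left (norm_low_le hs) (inv_nonneg.2 hL.le)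
  set err := Real.sqrt η * Kb + 2 * Cf / L with herr
  have hCf0 : 0 ≤ 2 * Cf / L := (norm_nonneg _).trans hlowv
  have hKb0 : 0 ≤ Kb := by rw [hKb]; positivity
  have herr0 : 0 ≤ err := by positivity
  have herre : err ≤ e0 := by linarith
  have he00 : 0 ≤ e0 := herr0.trans herre
  have hE : ∀ w, |⟪fderiv ℝ (nm f n ψ) x v, w⟫| ≤ Kd * ‖w‖ →
      |⟪(bb S η (ψ x) * fderiv ℝ (fun z => fderiv ℝ (S.h.h ψ) z v) x v) •
          B1 μ (L * S.h.h ψ x) (n (ψ x)) (nm f n ψ x)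
        + (2 * fderiv ℝ (S.h.h ψ) x v) • (Real.cos (L * S.h.h ψ x) •
            fderiv ℝ (fun z => bb S η (ψ z) • nm f n ψ z) x v
          + (-2 * Real.sin (2 * (L * S.h.h ψ x))) •
            fderiv ℝ (fun z => (-(μ / 4) * bb S η (ψ z)) • n (ψ z)) x v)
        + L⁻¹ • low μ L (fun z => n (ψ z)) (nm f n ψ) (fun z => bb S η (ψ z)) (S.h.h ψ) x v, w⟫| ≤
        err * ‖w‖ := fun w hw => by
    refine (err_bound hn1 hm1 hμ1 hC hs0 hX hY hb hdb hbd.ddH (abs_dHv_le hbd.dH hbd.vle) hKd0 hw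
      (hdn.trans (by rw [hKd]; linarith [mul_nonneg (mul_nonneg zero_le_two (abs_nonneg S.B)) (pow_nonneg hC'.le 3)])) hlowv).trans ?_
    refine mul_le_mul_of_nonneg_right ?_ (norm_nonneg _)
    rw [herr, hKb]
    linarith [mul_nonneg hs0 (pow_nonneg hC'.le 2)]
  have hKdB : |S.B| * C ^ 2 ≤ Kd := by
    rw [hKd]; linarith [mul_nonneg (mul_nonneg zero_le_two (abs_nonneg S.B)) (pow_nonneg hC'.le 3)]
  have en := hE (n (ψ x)) (by
    have hd := inner_deriv_zero (contDiff_nm hfn ψ) hn'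
      (fun z => by rw [real_inner_comm]; exact (nm_props hfn ψ z).2.2.1) x v
    rw [eq_neg_of_add_eq_zero_left hd, abs_neg, hn1, mul_one]
    refine (abs_real_inner_le_norm _ _).trans ?_
    rw [hm1, one_mul]
    exact hdn.trans hKdB)
  have em := hE (nm f n ψ x) (by
    have hd := inner_deriv_zero (contDiff_nm hfn ψ) (contDiff_nm hfn ψ)
      (fun z => (nm_props hfn ψ z).1) x v
    rw [real_inner_comm (fderiv ℝ (nm f n ψ) x v) (nm f n ψ x)] at hd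
    have : ⟪fderiv ℝ (nm f n ψ) x v, nm f n ψ x⟫ = 0 := by linarith
    rw [this, abs_zero]
    positivity)
  have eT := hE (fderiv ℝ (fun z => f (ψ z)) x u) ((hdm u).trans
    (mul_le_mul_of_nonneg_right (by rw [hKd]; linarith [mul_nonneg (abs_nonneg S.B) (pow_nonneg hC'.le 2)]) (norm_nonneg _)))
  rw [hn1, mul_one] at en
  rw [hm1, mul_one] at em
  refine no_turning (T := fderiv ℝ (fun z => f (ψ z)) x)
    (A := fun u => L⁻¹ • lowD μ L (fun z => n (ψ z)) (nm f n ψ) (fun z => bb S η (ψ z))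
      (S.h.h ψ) x u)
    (D0 := fderiv ℝ (fun z => fderiv ℝ (fun y => f (ψ y)) z v) x v)
    (s := L * bb S η (ψ x) * fderiv ℝ (S.h.h ψ) x v ^ 2) (t := L * S.h.h ψ x)
    (k := bb S η (ψ x) * fderiv ℝ (S.h.h ψ) x u) (u := u) (err := err) (a1 := a1)
    hnn hmm hnm (fun w => (hTo w).2) (fun w => (hTo w).1) (fun w => by rw [ha1]; exact hlow w)
    (by rw [ha1]; positivity) hκ0 hC00 herr0 ?_ (herre.trans he0.1) hμ ?_ (by rw [hκ']; exact hn0)
    (hm0.trans (by rw [hC0]; linarith [pow_nonneg hC'.le 4]))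
    ((hT0 u).trans (mul_le_mul_of_nonneg_right (by
      rw [hC0]; linarith [mul_nonneg (abs_nonneg S.B) (pow_nonneg hC'.le 3)]) (norm_nonneg _)))
    en em eT ?_ ?_ ?_
  · have ha : (0 : ℝ) < a1 := by rw [ha1]; positivity
    calc err * (2 + 4 * (C0 + err) / a1) ≤ e0 * (2 + 4 * (C0 + e0) / a1) := by gcongr
      _ ≤ κ' / 4 := he0.2
  · exact mul_nonneg (mul_nonneg hL.le (mul_nonneg hs0 (beta_nonneg S _))) (sq_nonneg _)
  · rw [abs_mul]
    have h1 := (fderiv ℝ (S.h.h ψ) x).le_of_opNorm_le hbd.dH u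
    rw [Real.norm_eq_abs] at h1
    calc |bb S η (ψ x)| * |fderiv ℝ (S.h.h ψ) x u| ≤ Real.sqrt η * C * (C * ‖u‖) :=
          mul_le_mul hb h1 (abs_nonneg _) (by positivity)
      _ = Real.sqrt η * C ^ 2 * ‖u‖ := by ring
      _ ≤ err * ‖u‖ := by
          refine mul_le_mul_of_nonneg_right ?_ (norm_nonneg _)
          have : Real.sqrt η * C ^ 2 ≤ Real.sqrt η * Kb :=
            mul_le_mul_of_nonneg_left (by rw [hKb]; linarith [mul_nonneg (mul_nonneg (by norm_num : (0:ℝ) ≤ 6) (pow_nonneg hC'.le 2)) (add_nonneg (mul_nonneg hKd0 hC'.le) (pow_nonneg hC'.le 2)), pow_nonneg hC'.le 2]) hs0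
          linarith
  · rw [norm_smul, norm_inv, Real.norm_eq_abs, abs_of_pos hL]
    calc L⁻¹ * ‖lowD μ L _ _ _ _ x u‖ ≤ L⁻¹ * (2 * Cf * ‖u‖) :=
          mul_le_mul_of_nonneg_left (norm_lowD_le hs u) (inv_nonneg.2 hL.le)
      _ = 2 * Cf / L * ‖u‖ := by ring
      _ ≤ err * ‖u‖ := mul_le_mul_of_nonneg_right (by linarith [mul_nonneg hs0 hKb0]) (norm_nonneg _)
  · have e1 := fderiv_loop (μ := μ) (M := L) hL.ne' hf' hn' (contDiff_nm hfn ψ) hbS (S.h.smooth ψ) x u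
    have e2 := fderiv2_loop (μ := μ) (M := L) hL.ne' hf' hn' (contDiff_nm hfn ψ) hbS (S.h.smooth ψ) x v
    simp only [loopIn] at hu
    rw [e1, e2] at hu
    rw [hu, high]
    abel

/-- Near the critical points: the constants are fixed before the map. -/
theorem exists_near {C : ℝ} (hC : 1 ≤ C) (g : Metric M) (S : Shape M) :
    ∃ μ η0 : ℝ, 0 < μ ∧ μ ≤ 1 ∧ 0 < η0 ∧ ∀ η, 0 < η → η ≤ η0 → ∀ (f n : M → R4) (c : M → ℝ),
      Framed f n → CapBd g S.h S.Z S.κ S.B f n → (∀ p ∈ S.Z, c p ^ 2 = η * S.θf p ^ 2) →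
      (∀ φ x, gc g φ x = met (fun z => f (φ z)) x + c (φ x) ^ 2 • sq (S.h.nu g φ x)
        + (η * S.θ0 (φ x) ^ 2) • sq (S.h.d φ x)) →
      ∀ (ψ : Chart M) (K : Set E2), IsCompact K → (∀ x ∈ K, StaticBd g S C ψ x) →
        ∀ᶠ L in atTop, ∀ x ∈ K, ψ x ∈ S.Z →
          II (loopIn S.h μ L f n (bb S η) ψ) x (S.h.efin g ψ x) ≠ 0 := by
  have hC' : 0 < C := by linarith
  have hκ := S.κ_pos
  set κ' := S.κ / C with hκ'
  set C0 := |S.B| * C ^ 3 + 24 * C ^ 4 with hC0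
  set a1 := 1 / (2 * C) with ha1
  set Kd := 2 * |S.B| * C ^ 3 + |S.B| * C ^ 2 with hKd
  set Kb := 2 * C ^ 2 + 6 * C ^ 2 * (Kd * C + C ^ 2) + C ^ 2 with hKb
  have hκ0 : 0 < κ' := by positivity
  have hC00 : 0 ≤ C0 := by positivity
  have hKb0 : 0 < Kb := by positivity
  set e0 := min 1 (min (a1 / 2) (κ' / (4 * (2 + 4 * (C0 + 1) / a1)))) with he0def
  have he0 : 0 < e0 := by positivity
  have he1 : e0 ≤ 1 := min_le_left _ _
  have he3 : e0 ≤ κ' / (4 * (2 + 4 * (C0 + 1) / a1)) :=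
    (min_le_right _ _).trans (min_le_right _ _)
  refine ⟨κ' / (4 * (C0 + κ')), min (1 / (16 * C ^ 2)) ((e0 / (2 * Kb)) ^ 2), by positivity,
    by rw [div_le_one (by positivity)]; linarith, by positivity,
    fun η hη hηle f n c hfn hcap hc hmet ψ K hK hbd => ?_⟩
  obtain ⟨Cf, hCf, hs⟩ := exists_sizeBd (μ := κ' / (4 * (C0 + κ'))) (ψ.contDiff_comp hfn.1)
    (ψ.contDiff_comp hfn.2.1) (contDiff_nm hfn ψ) (ψ.contDiff_comp (bb_smooth S η)) (S.h.smooth ψ)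
    (contDiff_efin g S.h ψ).continuous hK
  have hηb : Real.sqrt η * Kb ≤ e0 / 2 := by
    have h1 : Real.sqrt η ≤ e0 / (2 * Kb) := by
      rw [Real.sqrt_le_left (by positivity)]
      exact hηle.trans (min_le_right _ _)
    rw [le_div_iff₀ (by positivity)] at h1
    linarith
  have he4 : e0 * (2 + 4 * (C0 + e0) / a1) ≤ κ' / 4 := by
    have ha : 0 < a1 := by positivity
    calc e0 * (2 + 4 * (C0 + e0) / a1) ≤ e0 * (2 + 4 * (C0 + 1) / a1) := by gcongr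
      _ ≤ κ' / (4 * (2 + 4 * (C0 + 1) / a1)) * (2 + 4 * (C0 + 1) / a1) := by gcongr
      _ = κ' / 4 := by field_simp
  filter_upwards [eventually_ge_atTop (max 1 (4 * Cf / e0))] with L hL x hx hxZ
  have hL0 : 0 < L := lt_of_lt_of_le one_pos ((le_max_left _ _).trans hL)
  refine near_choice hC hη (hηle.trans (min_le_left _ _)) hκ' hC0 ha1 rfl hKd hKb
    ⟨(min_le_right _ _).trans (min_le_left _ _), he4⟩ hηb hfn hcap hc hmet (hbd x hx) hxZ hL0 ?_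
    (hs x hx)
  have h := (le_max_right _ _).trans hL
  rw [div_le_iff₀ he0] at h
  rw [div_le_iff₀ hL0]
  linarith

/-- Away from them the frequency wins. -/
theorem exists_far {C μ η : ℝ} (hC : 1 ≤ C) (hμ0 : 0 < μ) (hμ1 : μ ≤ 1) (hη : 0 < η)
    {f n : M → R4} (hfn : Framed f n) (ψ : Chart M) {K : Set E2} (hK : IsCompact K)
    (hbd : ∀ x ∈ K, StaticBd g S C ψ x) :
    ∀ᶠ L in atTop, ∀ x ∈ K, S.θ0 (ψ x) = 1 →
      II (loopIn S.h μ L f n (bb S η) ψ) x (S.h.efin g ψ x) ≠ 0 := by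
  have hf' := ψ.contDiff_comp hfn.1
  have hn' := ψ.contDiff_comp hfn.2.1
  have hbS : ContDiff ℝ ∞ fun z => bb S η (ψ z) := ψ.contDiff_comp (bb_smooth S η)
  obtain ⟨Cf, hCf, hs⟩ := exists_sizeBd (μ := μ) hf' hn' (contDiff_nm hfn ψ) hbS (S.h.smooth ψ)
    (contDiff_efin g S.h ψ).continuous hK
  obtain ⟨A, hA, hlow⟩ := Twist.exists_lower_bound (hf'.continuous_fderiv (by simp)) hK
    fun x _ => (hfn.2.2.2 ψ).1 x
  set Cd := Cf + 2 * Cf ^ 2 + 6 * Cf ^ 4 + 2 * Cf with hCd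
  have hC' : 0 < C := by linarith
  have hCf' : 0 < Cf := by linarith
  have hsη : 0 < Real.sqrt η := Real.sqrt_pos.2 hη
  filter_upwards [eventually_ge_atTop 1, eventually_ge_atTop (4 * Cf * A),
    eventually_gt_atTop ((4 * (Cd + 4 * (Cd + A⁻¹) * Cd / A⁻¹) / μ) * (4 * C) / Real.sqrt η)]
    with L hL1 hLA hLs x hx hθ
  have hL : 0 < L := by linarith
  intro h0
  obtain ⟨u, hu⟩ := exists_range_of_nrm_eq_zero h0
  simp only [loopIn] at hu
  rw [fderiv_loop hL.ne' hf' hn' (contDiff_nm hfn ψ) hbS (S.h.smooth ψ),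
    fderiv2_loop hL.ne' hf' hn' (contDiff_nm hfn ψ) hbS (S.h.smooth ψ), high] at hu
  obtain ⟨hmm, hnn, hnm, hTo⟩ := nm_props hfn ψ x
  have hs' := hs x hx
  set v := S.h.efin g ψ x
  have hb : bb S η (ψ x) = Real.sqrt η / 4 := by
    rw [bb, beta, hθ, Real.smoothTransition.one_of_one_le (by norm_num)]
    ring
  refine no_turning_large (T := fderiv ℝ (fun z => f (ψ z)) x)
    (A := fun u => L⁻¹ • lowD μ L (fun z => n (ψ z)) (nm f n ψ) (fun z => bb S η (ψ z))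
      (S.h.h ψ) x u)
    (D := fderiv ℝ (fun z => fderiv ℝ (fun y => f (ψ y)) z v) x v
      + (bb S η (ψ x) * fderiv ℝ (fun z => fderiv ℝ (S.h.h ψ) z v) x v) •
          B1 μ (L * S.h.h ψ x) (n (ψ x)) (nm f n ψ x)
      + (2 * fderiv ℝ (S.h.h ψ) x v) • (Real.cos (L * S.h.h ψ x) •
            fderiv ℝ (fun z => bb S η (ψ z) • nm f n ψ z) x v
          + (-2 * Real.sin (2 * (L * S.h.h ψ x))) •
            fderiv ℝ (fun z => (-(μ / 4) * bb S η (ψ z)) • n (ψ z)) x v)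
      + L⁻¹ • low μ L (fun z => n (ψ z)) (nm f n ψ) (fun z => bb S η (ψ z)) (S.h.h ψ) x v)
    (s := L * bb S η (ψ x) * fderiv ℝ (S.h.h ψ) x v ^ 2) (t := L * S.h.h ψ x)
    (k := bb S η (ψ x) * fderiv ℝ (S.h.h ψ) x u) (u := u) (err := 2 * Cf / L) (a1 := A⁻¹)
    (C := Cd) hnn hmm hnm (fun w => (hTo w).2) (fun w => (hTo w).1) (fun w => ?_)
    (inv_pos.2 hA) hμ0 hμ1 ?_ ?_ ?_ (by positivity) ?_ ?_ ?_
  · rw [inv_mul_le_iff₀ hA]
    exact hlow x hx w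
  · have hn1 : ‖n (ψ x)‖ = 1 := hfn.2.2.1 _
    have hm1 : ‖nm f n ψ x‖ = 1 := by rw [norm_eq_sqrt_real_inner, hmm, Real.sqrt_one]
    have hLd : |fderiv ℝ (S.h.h ψ) x v| ≤ Cf ^ 2 := abs_dHv_le hs'.dH hs'.v_le
    have h1 : ‖(bb S η (ψ x) * fderiv ℝ (fun z => fderiv ℝ (S.h.h ψ) z v) x v) •
        B1 μ (L * S.h.h ψ x) (n (ψ x)) (nm f n ψ x)‖ ≤ Cf * Cf * 2 := by
      rw [norm_smul, Real.norm_eq_abs, abs_mul]
      exact mul_le_mul (mul_le_mul hs'.b_le hs'.ddH (abs_nonneg _) hCf'.le)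
        (norm_B1_le hn1 hm1 (by rw [abs_of_pos hμ0]; exact hμ1) _) (norm_nonneg _) (by positivity)
    have hP := ((fderiv ℝ _ x).le_of_opNorm_le hs'.dP v).trans
      (mul_le_mul_of_nonneg_left hs'.v_le hCf'.le)
    have hQ := ((fderiv ℝ _ x).le_of_opNorm_le hs'.dQ v).trans
      (mul_le_mul_of_nonneg_left hs'.v_le hCf'.le)
    have h2 : ‖(2 * fderiv ℝ (S.h.h ψ) x v) • (Real.cos (L * S.h.h ψ x) •
          fderiv ℝ (fun z => bb S η (ψ z) • nm f n ψ z) x v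
        + (-2 * Real.sin (2 * (L * S.h.h ψ x))) •
          fderiv ℝ (fun z => (-(μ / 4) * bb S η (ψ z)) • n (ψ z)) x v)‖ ≤
        2 * Cf ^ 2 * (3 * (Cf * Cf)) := by
      rw [norm_smul, Real.norm_eq_abs, abs_mul, abs_two]
      refine mul_le_mul (by linarith) ((norm_add_le _ _).trans ?_) (norm_nonneg _) (by positivity)
      rw [norm_smul, norm_smul, Real.norm_eq_abs, Real.norm_eq_abs]
      have a1 := mul_le_mul (Real.abs_cos_le_one (L * S.h.h ψ x)) hP (norm_nonneg _) zero_le_one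
      have a2 : |-2 * Real.sin (2 * (L * S.h.h ψ x))| ≤ 2 := by
        rw [abs_mul, abs_neg, abs_two]
        linarith [Real.abs_sin_le_one (2 * (L * S.h.h ψ x))]
      have a3 := mul_le_mul a2 hQ (norm_nonneg _) zero_le_two
      linarith
    have h3 : ‖L⁻¹ • low μ L (fun z => n (ψ z)) (nm f n ψ) (fun z => bb S η (ψ z))
        (S.h.h ψ) x v‖ ≤ 2 * Cf := by
      rw [norm_smul, norm_inv, Real.norm_eq_abs, abs_of_pos hL]
      exact (mul_le_of_le_one_left (norm_nonneg _) (inv_le_one_of_one_le₀ hL1)).trans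
        (norm_low_le hs')
    refine (norm_add_le _ _).trans ((add_le_add ((norm_add_le _ _).trans (add_le_add
      ((norm_add_le _ _).trans (add_le_add hs'.ddf h1)) h2)) h3).trans ?_)
    rw [hCd]
    linarith
  · rw [abs_mul]
    have h1 := (fderiv ℝ (S.h.h ψ) x).le_of_opNorm_le hs'.dH u
    rw [Real.norm_eq_abs] at h1
    calc |bb S η (ψ x)| * |fderiv ℝ (S.h.h ψ) x u| ≤ Cf * (Cf * ‖u‖) :=
          mul_le_mul hs'.b_le h1 (abs_nonneg _) hCf'.le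
      _ = Cf ^ 2 * ‖u‖ := by ring
      _ ≤ Cd * ‖u‖ := mul_le_mul_of_nonneg_right (by
          rw [hCd]; linarith [pow_nonneg hCf'.le 4, sq_nonneg Cf]) (norm_nonneg _)
  · rw [norm_smul, norm_inv, Real.norm_eq_abs, abs_of_pos hL]
    calc L⁻¹ * ‖lowD μ L _ _ _ _ x u‖ ≤ L⁻¹ * (2 * Cf * ‖u‖) :=
          mul_le_mul_of_nonneg_left (norm_lowD_le hs' u) (inv_nonneg.2 hL.le)
      _ = 2 * Cf / L * ‖u‖ := by ring
  · rw [div_le_iff₀ hL, inv_eq_one_div]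
    field_simp
    linarith
  · have hLd2 := (hbd x hx).dHv
    rw [div_lt_iff₀ hsη] at hLs
    rw [hb]
    have h5 := mul_le_mul_of_nonneg_left hLd2 (mul_nonneg hL.le hsη.le)
    nlinarith
  · rw [hu]
    abel

/-- Metric and immersion. -/
theorem exists_metric {μ η : ℝ} (hμ0 : 0 < μ) (hμ1 : μ ≤ 1) {f n : M → R4} (hfn : Framed f n)
    (g : Metric M) (ψ : Chart M) {K : Set E2} (hK : IsCompact K) {δ : ℝ} (hδ : 0 < δ) :
    ∀ᶠ L in atTop, ∀ x ∈ K, Function.Injective (fderiv ℝ (loopIn S.h μ L f n (bb S η) ψ) x) ∧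
      ∃ r : ℝ, 0 ≤ r ∧ r ≤ 2 * bb S η (ψ x) ^ 2 ∧
        ‖met (loopIn S.h μ L f n (bb S η) ψ) x - met (fun z => f (ψ z)) x - r • sq (S.h.d ψ x)‖ ≤
          δ := by
  have hf' := ψ.contDiff_comp hfn.1
  have hn' := ψ.contDiff_comp hfn.2.1
  have hbS : ContDiff ℝ ∞ fun z => bb S η (ψ z) := ψ.contDiff_comp (bb_smooth S η)
  obtain ⟨Cf, hCf, hs⟩ := exists_sizeBd (μ := μ) hf' hn' (contDiff_nm hfn ψ) hbS (S.h.smooth ψ)
    (contDiff_efin g S.h ψ).continuous hK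
  obtain ⟨A, hA, hlow⟩ := Twist.exists_lower_bound (hf'.continuous_fderiv (by simp)) hK
    fun x _ => (hfn.2.2.2 ψ).1 x
  filter_upwards [eventually_ge_atTop 1, eventually_gt_atTop (2 * Cf * Cf * A ^ 2),
    eventually_ge_atTop ((40 * Cf ^ 4 + 4 * Cf ^ 2) / δ)] with L hL1 hLA hLδ x hx
  have hL : 0 < L := by linarith
  obtain ⟨hmm, hnn, hnm, hTo⟩ := nm_props hfn ψ x
  obtain ⟨hI, r, hr0, hr, hm⟩ := loop_metric (μ := μ) hL hf' hn' (contDiff_nm hfn ψ) hbS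
    (S.h.smooth ψ) hnn hmm hnm (fun w => ⟨(hTo w).2, (hTo w).1⟩)
    (by rw [abs_of_pos hμ0]; exact hμ1) hCf (hs x hx)
  refine ⟨(injective_iff_map_eq_zero _).2 fun u hu => ?_, r, hr0, hr, hm.trans ?_⟩
  · have h := hI u
    simp only [loopIn] at hu
    rw [hu, inner_zero_left, zero_sub, abs_neg, abs_of_nonneg real_inner_self_nonneg,
      real_inner_self_eq_norm_sq] at h
    have h2 := hlow x hx u
    have h3 : ‖u‖ ^ 2 ≤ A ^ 2 * (2 * Cf * Cf / L * ‖u‖ ^ 2) := by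
      calc ‖u‖ ^ 2 ≤ (A * ‖fderiv ℝ (fun z => f (ψ z)) x u‖) ^ 2 := by gcongr
        _ = A ^ 2 * ‖fderiv ℝ (fun z => f (ψ z)) x u‖ ^ 2 := mul_pow _ _ _
        _ ≤ _ := mul_le_mul_of_nonneg_left h (sq_nonneg A)
    by_contra hne
    have hp : 0 < ‖u‖ ^ 2 := by positivity
    have h4 : L ≤ 2 * Cf * Cf * A ^ 2 := by
      rw [div_mul_eq_mul_div, mul_div_assoc', le_div_iff₀ hL] at h3
      exact le_of_mul_le_mul_left (by linarith) hp
    linarith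
  · rw [div_le_iff₀ hδ] at hLδ
    have h5 : 4 * Cf ^ 2 / L ^ 2 ≤ 4 * Cf ^ 2 / L :=
      div_le_div_of_nonneg_left (by positivity) hL (le_self_pow₀ hL1 two_ne_zero)
    have h6 : 40 * Cf ^ 4 / L + 4 * Cf ^ 2 / L ≤ δ := by
      rw [← add_div, div_le_iff₀ hL]
      linarith
    linarith

end Vale.Agent.P205F.Crest
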