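import Vale.Agent.P205F.Chart.Transfer

/-!
# P205, the crest: one loop on the plane

`loop μ M f n m b H = f + M⁻¹ b (-(μ/4) cos (2 M H) n + sin (M H) m)` is a map with the metric of
`f` plus `b² O(dH²)` up to `O(1/M)`, whose second fundamental form along `v` cannot vanish: at the
turning points its `n`-component adds to the one of `f`, elsewhere the `m`-component wins unless it
is too small to spoil the first.
-/

namespace Vale.Agent.P205F.Crest

open scoped ContDiff RealInnerProductSpace Topology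

/-- The crest loop. -/
noncomputable def loop (μ M : ℝ) (f n m : E2 → R4) (b H : E2 → ℝ) (z : E2) : R4 :=
  f z + M⁻¹ • (Real.sin (M * H z) • (b z • m z) + Real.cos (2 * (M * H z)) • ((-(μ / 4) * b z) • n z))

/-- Direction of the first derivative. -/
noncomputable def B1 (μ t : ℝ) (n m : R4) : R4 :=
  ((μ / 2) * Real.sin (2 * t)) • n + Real.cos t • m

/-- Direction of the second derivative. -/
noncomputable def B2 (μ t : ℝ) (n m : R4) : R4 :=
  (μ * Real.cos (2 * t)) • n - Real.sin t • m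

/-- The part of the derivative of size `1/M`. -/
noncomputable def lowD (μ M : ℝ) (n m : E2 → R4) (b H : E2 → ℝ) (x u : E2) : R4 :=
  Real.sin (M * H x) • fderiv ℝ (fun z => b z • m z) x u
    + Real.cos (2 * (M * H x)) • fderiv ℝ (fun z => (-(μ / 4) * b z) • n z) x u

variable {μ M : ℝ} {f n m : E2 → R4} {b H : E2 → ℝ}

lemma contDiff_loop (hf : ContDiff ℝ ∞ f) (hn : ContDiff ℝ ∞ n) (hm : ContDiff ℝ ∞ m)
    (hb : ContDiff ℝ ∞ b) (hH : ContDiff ℝ ∞ H) : ContDiff ℝ ∞ (loop μ M f n m b H) := by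
  unfold loop
  fun_prop

lemma hasFDerivAt_phase {c : ℝ} {x : E2} (hH : DifferentiableAt ℝ H x) :
    HasFDerivAt (fun z => c * (M * H z)) ((c * M) • fderiv ℝ H x) x := by
  have := ((hH.hasFDerivAt.const_mul M).const_mul c)
  rwa [smul_smul] at this

lemma fderiv_loop (hM : M ≠ 0) (hf : ContDiff ℝ ∞ f) (hn : ContDiff ℝ ∞ n) (hm : ContDiff ℝ ∞ m)
    (hb : ContDiff ℝ ∞ b) (hH : ContDiff ℝ ∞ H) (x u : E2) :
    fderiv ℝ (loop μ M f n m b H) x u = fderiv ℝ f x u
      + (b x * fderiv ℝ H x u) • B1 μ (M * H x) (n x) (m x) + M⁻¹ • lowD μ M n m b H x u := by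
  have hd : ∀ {X : Type} [NormedAddCommGroup X] [NormedSpace ℝ X] {g : E2 → X},
      ContDiff ℝ ∞ g → HasFDerivAt g (fderiv ℝ g x) x := fun hg =>
    (hg.differentiable (by simp) x).hasFDerivAt
  have h1 := hasFDerivAt_phase (M := M) (c := 1) (hH.differentiable (by simp) x)
  simp only [one_mul] at h1
  have h2 := hasFDerivAt_phase (M := M) (c := 2) (hH.differentiable (by simp) x)
  have hs := (Real.hasDerivAt_sin (M * H x)).comp_hasFDerivAt x h1
  have hc := (Real.hasDerivAt_cos (2 * (M * H x))).comp_hasFDerivAt x h2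
  have hP : ContDiff ℝ ∞ fun z => b z • m z := hb.smul hm
  have hQ : ContDiff ℝ ∞ fun z => (-(μ / 4) * b z) • n z := (contDiff_const.mul hb).smul hn
  have h := (hd hf).fun_add (((hs.fun_smul (hd hP)).fun_add (hc.fun_smul (hd hQ))).fun_const_smul M⁻¹)
  have e : loop μ M f n m b H = fun z => f z + M⁻¹ • ((Real.sin ∘ fun z => M * H z) z • (b z • m z)
      + (Real.cos ∘ fun z => 2 * (M * H z)) z • ((-(μ / 4) * b z) • n z)) := rfl
  rw [e, h.fderiv]
  simp only [B1, lowD, ContinuousLinearMap.add_apply, ContinuousLinearMap.coe_smul', Pi.smul_apply,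
    ContinuousLinearMap.smulRight_apply, Function.comp_apply, smul_eq_mul]
  match_scalars <;> field_simp <;> ring

lemma contDiff_lowD (hn : ContDiff ℝ ∞ n) (hm : ContDiff ℝ ∞ m) (hb : ContDiff ℝ ∞ b)
    (hH : ContDiff ℝ ∞ H) (v : E2) : ContDiff ℝ ∞ fun z => lowD μ M n m b H z v := by
  have hP : ContDiff ℝ ∞ fun z => fderiv ℝ (fun y => b y • m y) z v :=
    ((hb.smul hm).fderiv_right (m := ∞) (by exact_mod_cast le_top)).clm_apply contDiff_const
  have hQ : ContDiff ℝ ∞ fun z => fderiv ℝ (fun y => (-(μ / 4) * b y) • n y) z v :=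
    (((contDiff_const.mul hb).smul hn).fderiv_right (m := ∞)
      (by exact_mod_cast le_top)).clm_apply contDiff_const
  unfold lowD
  fun_prop

/-- The second derivative along `v`, up to `O(1/M)`. -/
noncomputable def high (μ M : ℝ) (f n m : E2 → R4) (b H : E2 → ℝ) (x v : E2) : R4 :=
  fderiv ℝ (fun z => fderiv ℝ f z v) x v
    + (M * b x * fderiv ℝ H x v ^ 2) • B2 μ (M * H x) (n x) (m x)
    + (b x * fderiv ℝ (fun z => fderiv ℝ H z v) x v) • B1 μ (M * H x) (n x) (m x)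
    + (2 * fderiv ℝ H x v) • (Real.cos (M * H x) • fderiv ℝ (fun z => b z • m z) x v
      + (-2 * Real.sin (2 * (M * H x))) • fderiv ℝ (fun z => (-(μ / 4) * b z) • n z) x v)

/-- The second derivative of size `1/M`. -/
noncomputable def low (μ M : ℝ) (n m : E2 → R4) (b H : E2 → ℝ) (x v : E2) : R4 :=
  Real.sin (M * H x) • fderiv ℝ (fun z => fderiv ℝ (fun y => b y • m y) z v) x v
    + Real.cos (2 * (M * H x)) •
      fderiv ℝ (fun z => fderiv ℝ (fun y => (-(μ / 4) * b y) • n y) z v) x v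

lemma fderiv2_loop (hM : M ≠ 0) (hf : ContDiff ℝ ∞ f) (hn : ContDiff ℝ ∞ n)
    (hm : ContDiff ℝ ∞ m) (hb : ContDiff ℝ ∞ b) (hH : ContDiff ℝ ∞ H) (x v : E2) :
    fderiv ℝ (fun z => fderiv ℝ (loop μ M f n m b H) z v) x v =
      high μ M f n m b H x v + M⁻¹ • low μ M n m b H x v := by
  have hd : ∀ {X : Type} [NormedAddCommGroup X] [NormedSpace ℝ X] {g : E2 → X},
      ContDiff ℝ ∞ g → HasFDerivAt g (fderiv ℝ g x) x := fun hg =>
    (hg.differentiable (by simp) x).hasFDerivAt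
  have hv : ∀ {X : Type} [NormedAddCommGroup X] [NormedSpace ℝ X] {g : E2 → X},
      ContDiff ℝ ∞ g → ContDiff ℝ ∞ fun z => fderiv ℝ g z v := fun hg =>
    (hg.fderiv_right (m := ∞) (by exact_mod_cast le_top)).clm_apply contDiff_const
  have hP : ContDiff ℝ ∞ fun z => b z • m z := hb.smul hm
  have hQ : ContDiff ℝ ∞ fun z => (-(μ / 4) * b z) • n z := (contDiff_const.mul hb).smul hn
  have h1 := hasFDerivAt_phase (M := M) (c := 1) (hH.differentiable (by simp) x)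
  simp only [one_mul] at h1
  have h2 := hasFDerivAt_phase (M := M) (c := 2) (hH.differentiable (by simp) x)
  have hs := (Real.hasDerivAt_sin (M * H x)).comp_hasFDerivAt x h1
  have hc := (Real.hasDerivAt_cos (2 * (M * H x))).comp_hasFDerivAt x h2
  have hs2 := (Real.hasDerivAt_sin (2 * (M * H x))).comp_hasFDerivAt x h2
  have hc1 := (Real.hasDerivAt_cos (M * H x)).comp_hasFDerivAt x h1
  have hB : ∀ z, B1 μ (M * H z) (n z) (m z) =
      (μ / 2) • (Real.sin ∘ fun y => 2 * (M * H y)) z • n z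
        + (Real.cos ∘ fun y => M * H y) z • m z := fun z => by
    simp [B1, smul_smul, mul_comm]
  have hB' := ((hs2.fun_smul (hd hn)).fun_const_smul (μ / 2)).fun_add (hc1.fun_smul (hd hm))
  have hlow := ((hs.fun_smul (hd (hv hP))).fun_add (hc.fun_smul (hd (hv hQ)))).fun_const_smul M⁻¹
  have hmid := (((hd hb).fun_mul (hd (hv hH))).fun_smul hB')
  have h := ((hd (hv hf)).fun_add hmid).fun_add hlow
  have e : (fun z => fderiv ℝ (loop μ M f n m b H) z v) = fun z => fderiv ℝ f z v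
      + (b z * fderiv ℝ H z v) • ((μ / 2) • (Real.sin ∘ fun y => 2 * (M * H y)) z • n z
        + (Real.cos ∘ fun y => M * H y) z • m z)
      + M⁻¹ • ((Real.sin ∘ fun y => M * H y) z • fderiv ℝ (fun y => b y • m y) z v
        + (Real.cos ∘ fun y => 2 * (M * H y)) z •
          fderiv ℝ (fun y => (-(μ / 4) * b y) • n y) z v) :=
    funext fun z => by rw [fderiv_loop hM hf hn hm hb hH, ← hB]; rfl
  rw [e, h.fderiv]
  have eP : fderiv ℝ (fun z => b z • m z) x v = b x • fderiv ℝ m x v + fderiv ℝ b x v • m x := by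
    rw [((hd hb).fun_smul (hd hm)).fderiv]; simp
  have eQ : fderiv ℝ (fun z => (-(μ / 4) * b z) • n z) x v =
      (-(μ / 4) * b x) • fderiv ℝ n x v + (-(μ / 4) * fderiv ℝ b x v) • n x := by
    rw [(((hd hb).const_mul (-(μ / 4))).fun_smul (hd hn)).fderiv]; simp
  simp only [high, low, B1, B2, ContinuousLinearMap.add_apply, ContinuousLinearMap.coe_smul',
    Pi.smul_apply, ContinuousLinearMap.smulRight_apply, Function.comp_apply, smul_eq_mul, eP, eQ]
  match_scalars <;> field_simp <;> ring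

lemma inner_B1 (n m w : R4) (μ t : ℝ) :
    ⟪B1 μ t n m, w⟫ = (μ / 2) * Real.sin (2 * t) * ⟪n, w⟫ + Real.cos t * ⟪m, w⟫ := by
  simp [B1, inner_add_left, real_inner_smul_left]

lemma norm_sq_B1 {n m : R4} (hn : ‖n‖ = 1) (hm : ‖m‖ = 1) (hnm : ⟪n, m⟫ = 0) {μ : ℝ}
    (hμ : |μ| ≤ 1) (t : ℝ) : ⟪B1 μ t n m, B1 μ t n m⟫ ≤ 2 := by
  have hnn : ⟪n, n⟫ = 1 := by rw [real_inner_self_eq_norm_sq, hn, one_pow]
  have hmm : ⟪m, m⟫ = 1 := by rw [real_inner_self_eq_norm_sq, hm, one_pow]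
  have hnm' : ⟪m, n⟫ = 0 := by rw [real_inner_comm]; exact hnm
  simp only [B1, inner_add_left, inner_add_right, real_inner_smul_left, real_inner_smul_right, hnn,
    hmm, hnm, hnm']
  have h1 := Real.sin_sq_le_one (2 * t)
  have h2 := Real.cos_sq_le_one t
  have h3 : μ ^ 2 ≤ 1 := (sq_le_one_iff_abs_le_one μ).2 hμ
  nlinarith [mul_nonneg (sub_nonneg.2 h3) (sq_nonneg (Real.sin (2 * t)))]

lemma turning_arith {a c dn dm en' em' an am s t μ κ C0 a1 err k r : ℝ} (hκ : 0 < κ)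
    (hC0 : 0 ≤ C0) (hμ : μ = κ / (4 * (C0 + κ))) (hs : 0 ≤ s)
    (herr : err * (2 + 4 * (C0 + err) / a1) ≤ κ / 4) (hr : 0 ≤ r)
    (hmul : r ≤ err * (2 * (C0 + err) / a1)) (hk : |k| ≤ r) (hn0 : κ ≤ dn) (hm0 : |dm| ≤ C0)
    (hEn : -err ≤ en' ∧ en' ≤ err) (hEm : -err ≤ em' ∧ em' ≤ err) (hAn : -r ≤ an ∧ an ≤ r)
    (hAm : -r ≤ am ∧ am ≤ r) (ha : a = dn + s * (μ * Real.cos (2 * t)) + en')
    (hc : c = dm - s * Real.sin t + em')
    (en : a = k * (μ / 2 * Real.sin (2 * t)) + an) (em : c = k * Real.cos t + am) : False := by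
  have hμ0 : 0 < μ := by rw [hμ]; positivity
  have hμ1 : μ ≤ 1 / 4 := by rw [hμ, div_le_iff₀ (by positivity)]; linarith
  have hb : err + 2 * r ≤ κ / 4 := by
    refine le_trans ?_ herr
    have h4 : 4 * (C0 + err) / a1 = 2 * (2 * (C0 + err) / a1) := by ring
    rw [h4]
    linarith
  have hkc : |k * (μ / 2 * Real.sin (2 * t))| ≤ r := by
    rw [abs_mul]
    refine (mul_le_of_le_one_right (abs_nonneg k) ?_).trans hk
    rw [abs_mul]
    exact mul_le_one₀ (by rw [abs_of_pos (by linarith)]; linarith) (abs_nonneg _)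
      (Real.abs_sin_le_one _)
  have hkm : |k * Real.cos t| ≤ r := by
    rw [abs_mul]
    exact (mul_le_of_le_one_right (abs_nonneg k) (Real.abs_cos_le_one t)).trans hk
  have h3 : κ + s * (μ * Real.cos (2 * t)) ≤ κ / 4 := by linarith [abs_le.1 hkc]
  have hc2 : Real.cos (2 * t) < 0 := by
    by_contra hc'
    push Not at hc'
    have : 0 ≤ s * (μ * Real.cos (2 * t)) := by positivity
    linarith
  have hsin : 1 / 2 ≤ |Real.sin t| := by
    have h4 : (1 / 2 : ℝ) ^ 2 ≤ Real.sin t ^ 2 := by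
      linarith [Real.cos_two_mul' t, Real.sin_sq_add_cos_sq t]
    simpa using sq_le_sq.1 h4
  have hm3 : |s * Real.sin t| ≤ C0 + κ / 4 := by
    rw [abs_le]
    constructor <;> linarith [abs_le.1 hm0, abs_le.1 hkm]
  rw [abs_mul, abs_of_nonneg hs] at hm3
  have h5 : s * (1 / 2) ≤ C0 + κ / 4 := le_trans (mul_le_mul_of_nonneg_left hsin hs) hm3
  have h6 : -(s * μ) ≤ s * (μ * Real.cos (2 * t)) := by
    have := mul_le_mul_of_nonneg_left (Real.neg_one_le_cos (2 * t)) (mul_nonneg hs hμ0.le)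
    linarith
  have h7 : μ * (4 * (C0 + κ)) = κ := by rw [hμ]; field_simp
  have h8 : s * μ ≤ 2 * (C0 + κ / 4) * μ := mul_le_mul_of_nonneg_right (by linarith) hμ0.le
  have h9 : 0 ≤ μ * κ := mul_nonneg hμ0.le hκ.le
  linarith

/-- Near the critical points: the cap is never cancelled. -/
lemma no_turning {T : E2 →L[ℝ] R4} {n m D0 E : R4} {A : E2 → R4} {s t μ κ C0 a1 err k : ℝ}
    {u : E2} (hnn : ⟪n, n⟫ = 1) (hmm : ⟪m, m⟫ = 1) (hnm : ⟪n, m⟫ = 0)
    (hTn : ∀ w, ⟪n, T w⟫ = 0) (hTm : ∀ w, ⟪m, T w⟫ = 0)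
    (hT : ∀ w, a1 * ‖w‖ ≤ ‖T w‖) (ha1 : 0 < a1) (hκ : 0 < κ) (hC0 : 0 ≤ C0) (he : 0 ≤ err)
    (herr : err * (2 + 4 * (C0 + err) / a1) ≤ κ / 4) (hea : err ≤ a1 / 2)
    (hμ : μ = κ / (4 * (C0 + κ))) (hs : 0 ≤ s)
    (hn0 : κ ≤ ⟪D0, n⟫) (hm0 : |⟪D0, m⟫| ≤ C0) (hT0 : |⟪D0, T u⟫| ≤ C0 * ‖T u‖)
    (hEn : |⟪E, n⟫| ≤ err) (hEm : |⟪E, m⟫| ≤ err) (hET : |⟪E, T u⟫| ≤ err * ‖T u‖)
    (hk : |k| ≤ err * ‖u‖) (hA : ‖A u‖ ≤ err * ‖u‖) :
    D0 + s • B2 μ t n m + E ≠ T u + k • B1 μ t n m + A u := by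
  intro h
  have hnm' : ⟪m, n⟫ = 0 := by rw [real_inner_comm]; exact hnm
  have en := congrArg (fun z => ⟪z, n⟫) h
  have em := congrArg (fun z => ⟪z, m⟫) h
  have et := congrArg (fun z => ⟪z, T u⟫) h
  simp only [B2, inner_add_left, inner_sub_left, real_inner_smul_left, inner_B1,
    real_inner_comm n (T u), real_inner_comm m (T u), hnn, hmm, hnm, hnm', hTn, hTm, mul_one, mul_zero, zero_add, add_zero, sub_zero,
    zero_sub, mul_neg] at en em et
  have hAn : |⟪A u, n⟫| ≤ err * ‖u‖ := (abs_real_inner_le_norm _ _).trans (by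
    rw [show ‖n‖ = 1 by rw [norm_eq_sqrt_real_inner, hnn, Real.sqrt_one], mul_one]; exact hA)
  have hAm : |⟪A u, m⟫| ≤ err * ‖u‖ := (abs_real_inner_le_norm _ _).trans (by
    rw [show ‖m‖ = 1 by rw [norm_eq_sqrt_real_inner, hmm, Real.sqrt_one], mul_one]; exact hA)
  have hAT : |⟪A u, T u⟫| ≤ err * ‖u‖ * ‖T u‖ := (abs_real_inner_le_norm _ _).trans
    (mul_le_mul_of_nonneg_right hA (norm_nonneg _))
  have hTu : ‖T u‖ * ‖T u‖ ≤ (C0 + err + err * ‖u‖) * ‖T u‖ := by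
    rw [← real_inner_self_eq_norm_mul_norm]
    linarith [abs_le.1 hT0, abs_le.1 hET, abs_le.1 hAT]
  have hu : ‖u‖ ≤ 2 * (C0 + err) / a1 := by
    rw [le_div_iff₀ ha1]
    rcases eq_or_lt_of_le (norm_nonneg (T u)) with h0 | hpos
    · have := hT u
      rw [← h0] at this
      linarith
    · have := hT u
      have h1 := le_of_mul_le_mul_right hTu hpos
      have := mul_le_mul_of_nonneg_right hea (norm_nonneg u)
      linarith
  have hmul : err * ‖u‖ ≤ err * (2 * (C0 + err) / a1) := mul_le_mul_of_nonneg_left hu he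
  exact turning_arith (t := t) hκ hC0 hμ hs herr (mul_nonneg he (norm_nonneg u)) hmul hk hn0 hm0
    (abs_le.1 hEn) (abs_le.1 hEm) (abs_le.1 hAn) (abs_le.1 hAm) rfl rfl (by linarith) (by linarith)

/-- Away from them: the loop dominates. -/
lemma no_turning_large {T : E2 →L[ℝ] R4} {n m D : R4} {A : E2 → R4} {s t μ C a1 k err : ℝ}
    {u : E2} (hnn : ⟪n, n⟫ = 1) (hmm : ⟪m, m⟫ = 1) (hnm : ⟪n, m⟫ = 0)
    (hTn : ∀ w, ⟪n, T w⟫ = 0) (hTm : ∀ w, ⟪m, T w⟫ = 0)
    (hT : ∀ w, a1 * ‖w‖ ≤ ‖T w‖) (ha1 : 0 < a1) (hμ0 : 0 < μ) (hμ1 : μ ≤ 1)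
    (hD : ‖D‖ ≤ C) (hk : |k| ≤ C * ‖u‖) (hA : ‖A u‖ ≤ err * ‖u‖) (he0 : 0 ≤ err)
    (he : err ≤ a1 / 2) (hs : 4 * (C + 4 * (C + a1) * C / a1) / μ < s) :
    D + s • B2 μ t n m ≠ T u + k • B1 μ t n m + A u := by
  intro h
  have hnm' : ⟪m, n⟫ = 0 := by rw [real_inner_comm]; exact hnm
  have hC : 0 ≤ C := (norm_nonneg D).trans hD
  have en := congrArg (fun z => ⟪z, n⟫) h
  have em := congrArg (fun z => ⟪z, m⟫) h
  have et := congrArg (fun z => ⟪z, T u⟫) h
  simp only [B2, inner_add_left, inner_sub_left, real_inner_smul_left, inner_B1,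
    real_inner_comm n (T u), real_inner_comm m (T u), hnn, hmm, hnm, hnm', hTn, hTm, mul_one, mul_zero, zero_add, add_zero, sub_zero,
    zero_sub, mul_neg] at en em et
  have hn1 : ‖n‖ = 1 := by rw [norm_eq_sqrt_real_inner, hnn, Real.sqrt_one]
  have hm1 : ‖m‖ = 1 := by rw [norm_eq_sqrt_real_inner, hmm, Real.sqrt_one]
  have hunit : ∀ (x w : R4), ‖w‖ = 1 → |⟪x, w⟫| ≤ ‖x‖ := fun x w hw =>
    (abs_real_inner_le_norm x w).trans_eq (by rw [hw, mul_one])
  have b1 := abs_le.1 ((hunit D n hn1).trans hD)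
  have b2 := abs_le.1 ((hunit D m hm1).trans hD)
  have b3 := abs_le.1 ((abs_real_inner_le_norm D (T u)).trans
    (mul_le_mul_of_nonneg_right hD (norm_nonneg _)))
  have b4 := abs_le.1 ((hunit (A u) n hn1).trans hA)
  have b5 := abs_le.1 ((hunit (A u) m hm1).trans hA)
  have b6 := abs_le.1 ((abs_real_inner_le_norm (A u) (T u)).trans
    (mul_le_mul_of_nonneg_right hA (norm_nonneg _)))
  have hu : ‖u‖ ≤ 2 * C / a1 := by
    rw [le_div_iff₀ ha1]
    rcases eq_or_lt_of_le (norm_nonneg (T u)) with h0 | hpos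
    · have := hT u
      rw [← h0] at this
      linarith
    · have hTu : ‖T u‖ * ‖T u‖ ≤ (C + err * ‖u‖) * ‖T u‖ := by
        rw [← real_inner_self_eq_norm_mul_norm]
        linarith
      have := hT u
      have h1 := le_of_mul_le_mul_right hTu hpos
      have := mul_le_mul_of_nonneg_right he (norm_nonneg u)
      linarith
  have hk' : |k| + err * ‖u‖ ≤ 4 * (C + a1) * C / a1 := by
    have h1 : C * ‖u‖ ≤ C * (2 * C / a1) := mul_le_mul_of_nonneg_left hu hC
    have h2 : err * ‖u‖ ≤ a1 * (2 * C / a1) :=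
      mul_le_mul (by linarith) hu (norm_nonneg _) ha1.le
    have h3 : 4 * (C + a1) * C / a1 = 2 * (C * (2 * C / a1) + a1 * (2 * C / a1)) := by
      field_simp; ring
    have h4 : 0 ≤ C * (2 * C / a1) + a1 * (2 * C / a1) := by positivity
    linarith
  have b7 := abs_le.1 (show |k * ((μ / 2) * Real.sin (2 * t))| ≤ |k| by
    rw [abs_mul]
    refine mul_le_of_le_one_right (abs_nonneg k) ?_
    rw [abs_mul]
    exact mul_le_one₀ (by rw [abs_of_pos (by linarith)]; linarith) (abs_nonneg _)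
      (Real.abs_sin_le_one _))
  have b8 := abs_le.1 (show |k * Real.cos t| ≤ |k| by
    rw [abs_mul]; exact mul_le_of_le_one_right (abs_nonneg k) (Real.abs_cos_le_one t))
  have hS : C + 4 * (C + a1) * C / a1 < s * μ / 4 := by
    rw [div_lt_iff₀ hμ0] at hs
    linarith
  have hs0 : 0 < s := by
    refine lt_of_le_of_lt ?_ hs
    positivity
  by_cases hc : 1 / 2 ≤ Real.cos (2 * t)
  · have := mul_le_mul_of_nonneg_left hc (mul_nonneg hs0.le hμ0.le)
    linarith
  · have h4 : (1 / 2 : ℝ) ^ 2 ≤ Real.sin t ^ 2 := by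
      nlinarith [Real.sin_sq_add_cos_sq t, Real.cos_two_mul' t]
    have h5 : (1 / 2 : ℝ) ≤ |Real.sin t| := by
      simpa using sq_le_sq.1 h4
    have h6 := mul_le_mul_of_nonneg_left h5 hs0.le
    have h7 : |s * Real.sin t| ≤ C + 4 * (C + a1) * C / a1 :=
      abs_le.2 ⟨by linarith, by linarith⟩
    rw [abs_mul, abs_of_pos hs0] at h7
    have h8 : s * μ ≤ s := mul_le_of_le_one_right hs0.le hμ1
    linarith

end Vale.Agent.P205F.Crest
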