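import Vale.Agent.P205F.Interfaces
import Vale.Agent.P205F.Chart.Twisted
import Vale.Agent.P205F.Chart.Frame
import Vale.Agent.P205F.Top.Alg
import Vale.Agent.P205F.Crest.Loop

/-!
# P205, the crest: the twisted normal and the crest map on the surface

The second normal is a section of the orientation bundle, like the twisted function, so the loop
does not depend on the chart.
-/

namespace Vale.Agent.P205F.Crest

open scoped Manifold ContDiff RealInnerProductSpace Topology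
open Set Filter

variable {M : Type*} [TopologicalSpace M] [ChartedSpace E2 M]

/-- The vector product of the two derivatives and the normal. -/
noncomputable def cr (f n : M → R4) (ψ : Chart M) (z : E2) : R4 :=
  Top.cross (pd 0 (fun y => f (ψ y)) z) (pd 1 (fun y => f (ψ y)) z) (n (ψ z))

/-- The second unit normal in a chart. -/
noncomputable def nm (f n : M → R4) (ψ : Chart M) (z : E2) : R4 :=
  ‖cr f n ψ z‖⁻¹ • cr f n ψ z

lemma cross_lin (x y z : R4) (a b c d : ℝ) :
    Top.cross (a • x + b • y) (c • x + d • y) z = (a * d - b * c) • Top.cross x y z := by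
  ext i
  simp [Top.cross_apply, Top.d4_left]

variable {f n : M → R4}

lemma cr_ne_zero (hfn : Framed f n) (ψ : Chart M) (z : E2) : cr f n ψ z ≠ 0 := by
  obtain ⟨-, -, hunit, hψ⟩ := hfn
  obtain ⟨hi, ho⟩ := hψ ψ
  refine Top.cross_ne_zero (fun p q h => ?_) (fun h => by simpa [h] using hunit (ψ z))
    (by rw [real_inner_comm]; exact ho z 0) (by rw [real_inner_comm]; exact ho z 1)
  have h' : fderiv ℝ (fun y => f (ψ y)) z (p • ev 0 + q • ev 1) = 0 := by
    rw [map_add, map_smul, map_smul]; exact h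
  have h0 := hi z (h'.trans (map_zero _).symm)
  exact ⟨by simpa [ev] using congrArg (fun v : E2 => v 0) h0,
    by simpa [ev] using congrArg (fun v : E2 => v 1) h0⟩

lemma contDiff_nm (hfn : Framed f n) (ψ : Chart M) : ContDiff ℝ ∞ (nm f n ψ) := by
  have hd := P205F.contDiff_pd (ψ.contDiff_comp hfn.1)
  have hn := ψ.contDiff_comp hfn.2.1
  have hc : ContDiff ℝ ∞ (cr f n ψ) := by
    refine (EuclideanSpace.equiv (Fin 4) ℝ).symm.contDiff.comp (contDiff_pi.2 fun i => ?_)
    have hi : ∀ (j : Fin 4) {g : E2 → R4}, ContDiff ℝ ∞ g → ContDiff ℝ ∞ fun z => g z j :=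
      fun j _ hg => (EuclideanSpace.proj (𝕜 := ℝ) j).contDiff.comp hg
    have ha : ∀ j, ContDiff ℝ ∞ fun z => pd 0 (fun y => f (ψ y)) z j := fun j => hi j (hd 0)
    have hb : ∀ j, ContDiff ℝ ∞ fun z => pd 1 (fun y => f (ψ y)) z j := fun j => hi j (hd 1)
    have hc : ∀ j, ContDiff ℝ ∞ fun z => n (ψ z) j := fun j => hi j hn
    simp only [Top.d4, Top.plk]
    fun_prop
  exact ((hc.norm ℝ fun z => cr_ne_zero hfn ψ z).inv
    fun z => norm_ne_zero_iff.2 (cr_ne_zero hfn ψ z)).smul hc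

lemma nm_props (hfn : Framed f n) (ψ : Chart M) (z : E2) :
    ⟪nm f n ψ z, nm f n ψ z⟫ = 1 ∧ ⟪n (ψ z), n (ψ z)⟫ = 1 ∧ ⟪n (ψ z), nm f n ψ z⟫ = 0 ∧
      ∀ w, ⟪nm f n ψ z, fderiv ℝ (fun y => f (ψ y)) z w⟫ = 0 ∧
        ⟪n (ψ z), fderiv ℝ (fun y => f (ψ y)) z w⟫ = 0 := by
  obtain ⟨h0, h1, h2⟩ := Top.cross_inner_args (pd 0 (fun y => f (ψ y)) z)
    (pd 1 (fun y => f (ψ y)) z) (n (ψ z))
  have hne := cr_ne_zero hfn ψ z
  refine ⟨?_, ?_, ?_, fun w => ⟨?_, ?_⟩⟩
  · rw [real_inner_self_eq_norm_sq, nm, norm_smul, norm_inv, norm_norm,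
      inv_mul_cancel₀ (norm_ne_zero_iff.2 hne), one_pow]
  · rw [real_inner_self_eq_norm_sq, hfn.2.2.1, one_pow]
  · rw [nm, real_inner_smul_right, real_inner_comm]
    exact mul_eq_zero_of_right _ h2
  · rw [apply_eq_pd, nm, real_inner_smul_left, inner_add_right, real_inner_smul_right,
      real_inner_smul_right]
    simp only [cr] at *
    rw [h0, h1]
    ring
  · rw [apply_eq_pd, inner_add_right, real_inner_smul_right, real_inner_smul_right,
      (hfn.2.2.2 ψ).2 z 0, (hfn.2.2.2 ψ).2 z 1]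
    ring

lemma nm_change (hfn : Framed f n) (ψ φ : Chart M) {x : E2}
    (hx : φ.toFun x ∈ range ψ.toFun) :
    nm f n φ x = (SignType.sign (fderiv ℝ (ψ.trans φ) x).det : ℝ) •
      nm f n ψ (ψ.trans φ x) := by
  set T := fderiv ℝ (ψ.trans φ) x with hT
  have hd : ∀ i, pd i (fun y => f (φ y)) x = T (ev i) 0 • pd 0 (fun y => f (ψ y)) (ψ.trans φ x)
      + T (ev i) 1 • pd 1 (fun y => f (ψ y)) (ψ.trans φ x) := fun i => by
    rw [pd, P205F.fderiv_change ψ φ hfn.1 hx, ContinuousLinearMap.comp_apply, apply_eq_pd]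
  have hc : cr f n φ x = T.det • cr f n ψ (ψ.trans φ x) := by
    simp only [cr]
    rw [hd, hd, cross_lin, det_eq, ψ.trans_right φ hx]
    congr 1
    ring
  have hne := det_ne_zero_of_injective (ψ.trans_fderiv_injective φ hx)
  rw [nm, nm, hc, norm_smul, mul_inv, smul_smul, smul_smul, Real.norm_eq_abs]
  congr 1
  rcases lt_or_gt_of_ne hne with hlt | hgt
  · rw [sign_neg hlt, abs_of_neg hlt]
    simp only [SignType.coe_neg_one]
    field_simp
    simp [hT]
  · rw [sign_pos hgt, abs_of_pos hgt]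
    simp only [SignType.coe_one]
    field_simp
    simp [hT]

lemma loop_sign {μ M : ℝ} {f n m : E2 → R4} {b H : E2 → ℝ} {f' n' m' : E2 → R4} {b' H' : E2 → ℝ}
    {x y : E2} {s : ℝ} (hs : s = 1 ∨ s = -1) (hf : f x = f' y) (hn : n x = n' y)
    (hm : m x = s • m' y) (hb : b x = b' y) (hH : H x = s * H' y) :
    loop μ M f n m b H x = loop μ M f' n' m' b' H' y := by
  rcases hs with rfl | rfl
  · simp [loop, hf, hn, hm, hb, hH]
  · simp [loop, hf, hn, hm, hb, hH]

variable [IsManifold (𝓡 2) ∞ M] (h : Twisted M)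

/-- The crest loop in a chart. -/
noncomputable def loopIn (μ L : ℝ) (f n : M → R4) (b : M → ℝ) (ψ : Chart M) : E2 → R4 :=
  loop μ L (fun z => f (ψ z)) (fun z => n (ψ z)) (nm f n ψ) (fun z => b (ψ z)) (h.h ψ)

lemma exists_chart (p : M) : ∃ q : Chart M × E2, q.1.toFun q.2 = p := by
  obtain ⟨ψ, x, hx, -⟩ := Chart.exists_mem (Filter.univ_mem (f := 𝓝 p))
  exact ⟨(ψ, x), hx⟩

/-- The crest map. -/
noncomputable def crestMap (μ L : ℝ) (f n : M → R4) (b : M → ℝ) (p : M) : R4 :=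
  loopIn h μ L f n b (exists_chart p).choose.1 (exists_chart p).choose.2

lemma crestMap_apply (hfn : Framed f n) (μ L : ℝ) (b : M → ℝ) (φ : Chart M) (x : E2) :
    crestMap h μ L f n b (φ x) = loopIn h μ L f n b φ x := by
  set q := (exists_chart (φ.toFun x)).choose
  have hq : q.1.toFun q.2 = φ.toFun x := (exists_chart (φ.toFun x)).choose_spec
  have hx : φ.toFun x ∈ range q.1.toFun := ⟨q.2, hq⟩
  have ht : q.1.trans φ x = q.2 := Chart.trans_eq hq.symm
  have hm := nm_change hfn q.1 φ hx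
  rw [ht] at hm
  have hne := det_ne_zero_of_injective (q.1.trans_fderiv_injective φ hx)
  show loopIn h μ L f n b q.1 q.2 = _
  refine (loop_sign (μ := μ) (M := L) (f := fun z => f (φ z)) (n := fun z => n (φ z))
    (b := fun z => b (φ z)) (s := (SignType.sign (fderiv ℝ (q.1.trans φ) x).det : ℝ)) ?_ ?_ ?_ hm ?_
    (h.compat φ q.1 x q.2 hq.symm)).symm
  · rcases lt_or_gt_of_ne hne with hlt | hgt
    · right; simp [sign_neg hlt]
    · left; simp [sign_pos hgt]
  all_goals simp [hq]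

lemma crestMap_smooth (hfn : Framed f n) (μ L : ℝ) {b : M → ℝ}
    (hb : ContMDiff (𝓡 2) 𝓘(ℝ, ℝ) ∞ b) : ContMDiff (𝓡 2) (𝓡 4) ∞ (crestMap h μ L f n b) := by
  refine Chart.contMDiff_of_forall fun ψ => ?_
  simp only [crestMap_apply h hfn]
  exact contDiff_loop (ψ.contDiff_comp hfn.1) (ψ.contDiff_comp hfn.2.1) (contDiff_nm hfn ψ)
    (ψ.contDiff_comp hb) (h.smooth ψ)

lemma crestMap_of_zero (hfn : Framed f n) (μ L : ℝ) {b : M → ℝ} {p : M} (hp : b p = 0) :
    crestMap h μ L f n b p = f p := by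
  obtain ⟨⟨ψ, x⟩, rfl⟩ := exists_chart p
  simp [crestMap_apply h hfn, loopIn, loop, hp]

end Vale.Agent.P205F.Crest
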