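import Vale.Agent.P205F.Crest.Defs
import Vale.Agent.P205F.Twist.Assembly

/-!
# P205, the crest: the twists which keep `II(∂x,∂x) ≠ 0`
-/

namespace Vale.Agent.P205F.Crest

open scoped ContDiff

theorem keepTwistStmt (hE : ExpandKeepStmt) (hG : GoodProbStmt false) (hT : TransposeStmt)
    (hC : GdChartStmt.{0}) (hN : NMStmt) : KeepTwistStmt := by
  intro f a ν U hf himm ha hac hU haU hν hν1 hν0 hII hgd ε hε
  obtain ⟨f', δ, h1, h2, h3, h4, h5, h6, h7, -, h8, h9, -, h10, -⟩ :=
    Twist.twist_core false true hG hT hC hN (f := f) (a := a) (ν := ν) (U := U) (by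
      intro K K' hK hK' haK hKK' hK'U q
      simpa using hE f a ν U K K' hf himm ha hac hν hU hK hK' haK hKK' hK'U hgd hν1 hν0 hII q)
      (fun _ => hII) hf himm ha hac hU haU hν (fun h => absurd h (by simp)) hgd hε
  exact ⟨f', δ, h1, h2, h3, h4, h5, h6, h7, h8, h9, h10 rfl⟩

end Vale.Agent.P205F.Crest
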