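import Vale.Agent.P205F.Crest.Bounds
import Vale.Agent.P205F.Twist.Assembly

/-!
# P205, the crest: the loop at a point of a chart
-/

namespace Vale.Agent.P205F.Crest

open scoped Manifold ContDiff RealInnerProductSpace Topology
open Set Filter

/-- Bounds depending on the map. -/
structure SizeBd (μ : ℝ) (f n m : E2 → R4) (b H : E2 → ℝ) (x v : E2) (Cf : ℝ) : Prop where
  df : ‖fderiv ℝ f x‖ ≤ Cf
  dP : ‖fderiv ℝ (fun z => b z • m z) x‖ ≤ Cf
  dQ : ‖fderiv ℝ (fun z => (-(μ / 4) * b z) • n z) x‖ ≤ Cf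
  ddP : ‖fderiv ℝ (fun z => fderiv ℝ (fun y => b y • m y) z v) x v‖ ≤ Cf
  ddQ : ‖fderiv ℝ (fun z => fderiv ℝ (fun y => (-(μ / 4) * b y) • n y) z v) x v‖ ≤ Cf
  ddf : ‖fderiv ℝ (fun z => fderiv ℝ f z v) x v‖ ≤ Cf
  b_le : |b x| ≤ Cf
  dH : ‖fderiv ℝ H x‖ ≤ Cf
  ddH : |fderiv ℝ (fun z => fderiv ℝ H z v) x v| ≤ Cf
  v_le : ‖v‖ ≤ Cf

variable {μ L Cf : ℝ} {f n m : E2 → R4} {b H : E2 → ℝ} {x v : E2}

lemma exists_sizeBd (hf : ContDiff ℝ ∞ f) (hn : ContDiff ℝ ∞ n) (hm : ContDiff ℝ ∞ m)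
    (hb : ContDiff ℝ ∞ b) (hH : ContDiff ℝ ∞ H) {V : E2 → E2} (hV : Continuous V) {K : Set E2}
    (hK : IsCompact K) : ∃ Cf, 1 ≤ Cf ∧ ∀ x ∈ K, SizeBd μ f n m b H x (V x) Cf := by
  have hP : ContDiff ℝ ∞ fun z => b z • m z := hb.smul hm
  have hQ : ContDiff ℝ ∞ fun z => (-(μ / 4) * b z) • n z := (contDiff_const.mul hb).smul hn
  have hd2 : ∀ {X : Type} [NormedAddCommGroup X] [NormedSpace ℝ X] {u : E2 → X},
      ContDiff ℝ ∞ u → Continuous fun x => fderiv ℝ (fderiv ℝ u) x (V x) (V x) := fun hu =>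
    (((hu.fderiv_right (m := ∞) (by exact_mod_cast le_top)).continuous_fderiv
      (by simp)).clm_apply hV).clm_apply hV
  have hbd : ∀ u : E2 → ℝ, Continuous u → ∃ B, 0 ≤ B ∧ ∀ x ∈ K, u x ≤ B := fun u hu => by
    obtain ⟨B, hB⟩ := hK.exists_bound_of_continuousOn hu.continuousOn
    exact ⟨max B 0, le_max_right _ _, fun x hx =>
      (le_abs_self _).trans ((hB x hx).trans (le_max_left _ _))⟩
  obtain ⟨B1, hB1, h1⟩ := hbd _ (hf.continuous_fderiv (by simp)).norm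
  obtain ⟨B2, hB2, h2⟩ := hbd _ (hP.continuous_fderiv (by simp)).norm
  obtain ⟨B3, hB3, h3⟩ := hbd _ (hQ.continuous_fderiv (by simp)).norm
  obtain ⟨B4, hB4, h4⟩ := hbd _ (hd2 hP).norm
  obtain ⟨B5, hB5, h5⟩ := hbd _ (hd2 hQ).norm
  obtain ⟨B6, hB6, h6⟩ := hbd _ (hd2 hf).norm
  obtain ⟨B7, hB7, h7⟩ := hbd _ hb.continuous.abs
  obtain ⟨B8, hB8, h8⟩ := hbd _ (hH.continuous_fderiv (by simp)).norm
  obtain ⟨B9, hB9, h9⟩ := hbd _ (hd2 hH).abs
  obtain ⟨B10, hB10, h10⟩ := hbd _ hV.norm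
  refine ⟨1 + B1 + B2 + B3 + B4 + B5 + B6 + B7 + B8 + B9 + B10, by linarith, fun x hx => ?_⟩
  constructor <;> try simp only [D2_apply hP, D2_apply hQ, D2_apply hf, D2_apply hH]
  · linarith [h1 x hx]
  · linarith [h2 x hx]
  · linarith [h3 x hx]
  · linarith [h4 x hx]
  · linarith [h5 x hx]
  · linarith [h6 x hx]
  · linarith [h7 x hx]
  · linarith [h8 x hx]
  · linarith [h9 x hx]
  · linarith [h10 x hx]

lemma norm_lowD_le (hs : SizeBd μ f n m b H x v Cf) (u : E2) :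
    ‖lowD μ L n m b H x u‖ ≤ 2 * Cf * ‖u‖ := by
  refine (norm_add_le _ _).trans ?_
  have h1 : ‖Real.sin (L * H x) • fderiv ℝ (fun z => b z • m z) x u‖ ≤ 1 * (Cf * ‖u‖) := by
    rw [norm_smul]
    exact mul_le_mul (Real.abs_sin_le_one _) ((fderiv ℝ _ x).le_of_opNorm_le hs.dP u)
      (norm_nonneg _) zero_le_one
  have h2 : ‖Real.cos (2 * (L * H x)) • fderiv ℝ (fun z => (-(μ / 4) * b z) • n z) x u‖ ≤
      1 * (Cf * ‖u‖) := by
    rw [norm_smul]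
    exact mul_le_mul (Real.abs_cos_le_one _) ((fderiv ℝ _ x).le_of_opNorm_le hs.dQ u)
      (norm_nonneg _) zero_le_one
  linarith

lemma norm_low_le (hs : SizeBd μ f n m b H x v Cf) : ‖low μ L n m b H x v‖ ≤ 2 * Cf := by
  refine (norm_add_le _ _).trans ?_
  rw [norm_smul, norm_smul]
  have h1 := mul_le_mul (Real.abs_sin_le_one (L * H x)) hs.ddP (norm_nonneg _) zero_le_one
  have h2 := mul_le_mul (Real.abs_cos_le_one (2 * (L * H x))) hs.ddQ (norm_nonneg _) zero_le_one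
  rw [Real.norm_eq_abs, Real.norm_eq_abs]
  linarith

/-- Immersion and metric of the loop. -/
lemma loop_metric (hL : 0 < L) (hf : ContDiff ℝ ∞ f) (hn : ContDiff ℝ ∞ n) (hm : ContDiff ℝ ∞ m)
    (hb : ContDiff ℝ ∞ b) (hH : ContDiff ℝ ∞ H) (hnn : ⟪n x, n x⟫ = 1) (hmm : ⟪m x, m x⟫ = 1)
    (hnm : ⟪n x, m x⟫ = 0) (hT : ∀ w, ⟪n x, fderiv ℝ f x w⟫ = 0 ∧ ⟪m x, fderiv ℝ f x w⟫ = 0)
    (hμ : |μ| ≤ 1) (hCf : 1 ≤ Cf) (hs : SizeBd μ f n m b H x v Cf) :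
    (∀ u, |⟪fderiv ℝ (loop μ L f n m b H) x u, fderiv ℝ f x u⟫ - ⟪fderiv ℝ f x u, fderiv ℝ f x u⟫| ≤
      2 * Cf * Cf / L * ‖u‖ ^ 2) ∧
    ∃ r : ℝ, 0 ≤ r ∧ r ≤ 2 * b x ^ 2 ∧
      ‖met (loop μ L f n m b H) x - met f x - r • sq ![pd 0 H x, pd 1 H x]‖ ≤
        40 * Cf ^ 4 / L + 4 * Cf ^ 2 / L ^ 2 := by
  set B := B1 μ (L * H x) (n x) (m x) with hB
  have hBT : ∀ w, ⟪B, fderiv ℝ f x w⟫ = 0 := fun w => by
    rw [hB, inner_B1, (hT w).1, (hT w).2]; simp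
  have hn1 : ‖n x‖ = 1 := by rw [norm_eq_sqrt_real_inner, hnn, Real.sqrt_one]
  have hm1 : ‖m x‖ = 1 := by rw [norm_eq_sqrt_real_inner, hmm, Real.sqrt_one]
  constructor
  · intro u
    rw [fderiv_loop hL.ne' hf hn hm hb hH, ← hB]
    simp only [inner_add_left, real_inner_smul_left, hBT, mul_zero, add_zero, add_sub_cancel_left]
    rw [abs_mul, abs_inv, abs_of_pos hL]
    have h1 := (abs_real_inner_le_norm (lowD μ L n m b H x u) (fderiv ℝ f x u)).trans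
      (mul_le_mul (norm_lowD_le hs u) ((fderiv ℝ f x).le_of_opNorm_le hs.df u) (norm_nonneg _)
        (by positivity))
    calc L⁻¹ * |⟪lowD μ L n m b H x u, fderiv ℝ f x u⟫| ≤
          L⁻¹ * (2 * Cf * ‖u‖ * (Cf * ‖u‖)) := mul_le_mul_of_nonneg_left h1 (inv_nonneg.2 hL.le)
      _ = 2 * Cf * Cf / L * ‖u‖ ^ 2 := by ring
  · refine ⟨b x ^ 2 * ⟪B, B⟫, mul_nonneg (sq_nonneg _) real_inner_self_nonneg, ?_, ?_⟩
    · rw [mul_comm 2]
      exact mul_le_mul_of_nonneg_left (norm_sq_B1 hn1 hm1 hnm hμ _) (sq_nonneg _)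
    have hC3 : Cf ≤ 3 * Cf ^ 2 := by nlinarith
    have hev : ∀ i, ‖ev i‖ = 1 := fun i => by simp [ev]
    have hbound : ∀ i j, |⟪fderiv ℝ (loop μ L f n m b H) x (ev i),
        fderiv ℝ (loop μ L f n m b H) x (ev j)⟫ - ⟪fderiv ℝ f x (ev i), fderiv ℝ f x (ev j)⟫
        - b x ^ 2 * ⟪B, B⟫ * (pd i H x * pd j H x)| ≤ 40 * Cf ^ 4 / L + 4 * Cf ^ 2 / L ^ 2 := by
      intro i j
      have hk : ∀ k, ‖(b x * fderiv ℝ H x (ev k)) • B‖ ≤ 3 * Cf ^ 2 := fun k => by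
        rw [norm_smul, Real.norm_eq_abs, abs_mul]
        have h1 : |fderiv ℝ H x (ev k)| ≤ Cf := by
          have := (fderiv ℝ H x).le_of_opNorm_le hs.dH (ev k)
          rwa [hev, mul_one, Real.norm_eq_abs] at this
        calc |b x| * |fderiv ℝ H x (ev k)| * ‖B‖ ≤ Cf * Cf * 2 := by
              refine mul_le_mul (mul_le_mul hs.b_le h1 (abs_nonneg _) (by linarith))
                (norm_B1_le hn1 hm1 hμ _) (norm_nonneg _) (by positivity)
          _ ≤ 3 * Cf ^ 2 := by nlinarith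
      have ha : ∀ k, ‖fderiv ℝ f x (ev k)‖ ≤ 3 * Cf ^ 2 := fun k =>
        ((fderiv ℝ f x).le_of_opNorm_le hs.df (ev k)).trans (by rw [hev, mul_one]; exact hC3)
      have hl : ∀ k, ‖L⁻¹ • lowD μ L n m b H x (ev k)‖ ≤ 2 * Cf / L := fun k => by
        rw [norm_smul, norm_inv, Real.norm_eq_abs, abs_of_pos hL, div_eq_inv_mul]
        refine mul_le_mul_of_nonneg_left ?_ (inv_nonneg.2 hL.le)
        simpa [hev] using norm_lowD_le hs (ev k)
      have h := inner_expand (ha i) (ha j) (hk i) (hk j) (hl i) (hl j)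
      rw [fderiv_loop hL.ne' hf hn hm hb hH, fderiv_loop hL.ne' hf hn hm hb hH, ← hB]
      have e : ⟪fderiv ℝ f x (ev i) + (b x * fderiv ℝ H x (ev i)) • B,
          fderiv ℝ f x (ev j) + (b x * fderiv ℝ H x (ev j)) • B⟫ =
          ⟪fderiv ℝ f x (ev i), fderiv ℝ f x (ev j)⟫
            + b x ^ 2 * ⟪B, B⟫ * (pd i H x * pd j H x) := by
        simp only [inner_add_left, inner_add_right, real_inner_smul_left, real_inner_smul_right,
          hBT, real_inner_comm B (fderiv ℝ f x (ev i)), pd]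
        ring
      rw [e] at h
      rw [sub_sub]
      refine h.trans ?_
      have h5 : 4 * (3 * Cf ^ 2) * (2 * Cf / L) ≤ 40 * Cf ^ 4 / L := by
        rw [show 4 * (3 * Cf ^ 2) * (2 * Cf / L) = 24 * Cf ^ 3 / L by ring]
        refine div_le_div_of_nonneg_right ?_ hL.le
        have : Cf ^ 3 ≤ Cf ^ 4 := pow_le_pow_right₀ hCf (by norm_num)
        linarith [pow_nonneg (by linarith : (0:ℝ) ≤ Cf) 4]
      have h6 : 2 * Cf / L * (2 * Cf / L) = 4 * Cf ^ 2 / L ^ 2 := by ring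
      linarith
    rw [pi_norm_le_iff_of_nonneg (by positivity)]
    intro k
    fin_cases k
    · simpa [met, sq, pd, pow_two] using hbound 0 0
    · simpa [met, sq, pd] using hbound 0 1
    · simpa [met, sq, pd, pow_two] using hbound 1 1

/-! ### In a chart of the surface -/

variable {M : Type*} [TopologicalSpace M] [ChartedSpace E2 M] [IsManifold (𝓡 2) ∞ M]
  (g : Metric M) (S : Shape M)

/-- The amplitude. -/
noncomputable def bb (η : ℝ) (p : M) : ℝ := Real.sqrt η * beta S p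

lemma bb_smooth (η : ℝ) : ContMDiff (𝓡 2) 𝓘(ℝ, ℝ) ∞ (bb S η) :=
  ((contDiff_const.mul contDiff_id) : ContDiff ℝ ∞ fun t : ℝ => Real.sqrt η * t).comp_contMDiff
    (beta_smooth S)

lemma bb_sq_le {η : ℝ} (hη : 0 ≤ η) (p : M) : 2 * bb S η p ^ 2 ≤ η * S.θ0 p ^ 2 / 2 := by
  rw [bb, mul_pow, Real.sq_sqrt hη]
  have h := pow_le_pow_left₀ (beta_nonneg S p) (beta_le S p) 2
  have := mul_le_mul_of_nonneg_left h hη
  linarith

variable {g S}

lemma near_point {C η : ℝ} (hC : 1 ≤ C) (hη : 0 < η) (hη1 : η ≤ 1 / (16 * C ^ 2)) {f n : M → R4}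
    {c : M → ℝ} (hfn : Framed f n) (hcap : CapBd g S.h S.Z S.κ S.B f n)
    (hc : ∀ p ∈ S.Z, c p ^ 2 = η * S.θf p ^ 2)
    (hmet : ∀ φ x, gc g φ x = met (fun z => f (φ z)) x + c (φ x) ^ 2 • sq (S.h.nu g φ x)
      + (η * S.θ0 (φ x) ^ 2) • sq (S.h.d φ x))
    {ψ : Chart M} {x : E2} (hbd : StaticBd g S C ψ x) (hx : ψ x ∈ S.Z) :
    let v := S.h.efin g ψ x
    let fp : E2 → R4 := fun z => f (ψ z)
    (∀ w, 1 / (2 * C) * ‖w‖ ≤ ‖fderiv ℝ fp x w‖) ∧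
    S.κ / C ≤ ⟪fderiv ℝ (fun z => fderiv ℝ fp z v) x v, n (ψ x)⟫ ∧
    |⟪fderiv ℝ (fun z => fderiv ℝ fp z v) x v, nm f n ψ x⟫| ≤ |S.B| * C ^ 3 ∧
    (∀ u, |⟪fderiv ℝ (fun z => fderiv ℝ fp z v) x v, fderiv ℝ fp x u⟫| ≤
      24 * C ^ 4 * ‖fderiv ℝ fp x u‖) ∧
    ‖fderiv ℝ (fun z => n (ψ z)) x v‖ ≤ |S.B| * C ^ 2 ∧
    ∀ u, |⟪fderiv ℝ (nm f n ψ) x v, fderiv ℝ fp x u⟫| ≤
      2 * |S.B| * C ^ 3 * ‖fderiv ℝ fp x u‖ := by
  intro v fp
  have hfp : ContDiff ℝ ∞ fp := ψ.contDiff_comp hfn.1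
  obtain ⟨hmm, hnn, hnm, hTo⟩ := nm_props hfn ψ x
  have hC0 : 0 < C := by linarith
  have hθ : ∀ t : ℝ, t ∈ Set.Icc (0 : ℝ) 1 → t ^ 2 ≤ 1 := fun t ht => pow_le_one₀ ht.1 ht.2
  -- the metric near the point
  have hev : met fp =ᶠ[𝓝 x] fun z => gc g ψ z - η • slackZ g S ψ z := by
    filter_upwards [(S.Z_open.preimage ψ.continuous).mem_nhds hx] with z hz
    have := hmet ψ z
    rw [hc _ hz] at this
    rw [this, slackZ, smul_add, smul_smul, smul_smul]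
    simp [fp]
  have hlow : ∀ w, 1 / (2 * C) * ‖w‖ ≤ ‖fderiv ℝ fp x w‖ := by
    intro w
    have e : ⟪fderiv ℝ fp x w, fderiv ℝ fp x w⟫ = bil (gc g ψ x) w w
        - η * bil (slackZ g S ψ x) w w := by
      rw [← bil_met, hev.eq_of_nhds]
      simp [bil]
      ring
    have h1 := hbd.low w
    have hq : |bil (slackZ g S ψ x) w w| ≤ 8 * C * ‖w‖ ^ 2 := by
      refine (abs_bil_le _ _ _).trans ?_
      have : ‖slackZ g S ψ x‖ ≤ 2 * C := by
        refine (norm_add_le _ _).trans ?_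
        rw [norm_smul, norm_smul]
        have a1 := mul_le_mul (show ‖S.θf (ψ x) ^ 2‖ ≤ 1 by
          rw [Real.norm_eq_abs, abs_of_nonneg (sq_nonneg _)]; exact hθ _ (S.θf_range _))
          hbd.sqν (norm_nonneg _) zero_le_one
        have a2 := mul_le_mul (show ‖S.θ0 (ψ x) ^ 2‖ ≤ 1 by
          rw [Real.norm_eq_abs, abs_of_nonneg (sq_nonneg _)]; exact hθ _ (S.θ0_range _))
          hbd.sqd (norm_nonneg _) zero_le_one
        linarith
      calc 4 * ‖slackZ g S ψ x‖ * ‖w‖ * ‖w‖ ≤ 4 * (2 * C) * ‖w‖ * ‖w‖ := by gcongr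
        _ = 8 * C * ‖w‖ ^ 2 := by ring
    have hη2 : η * (16 * C ^ 2) ≤ 1 := by rwa [le_div_iff₀ (by positivity)] at hη1
    have h2 : ‖w‖ ^ 2 / (2 * C) ≤ ‖fderiv ℝ fp x w‖ ^ 2 := by
      rw [← real_inner_self_eq_norm_sq (fderiv ℝ fp x w), e, div_le_iff₀ (by linarith)]
      have h3 := mul_le_mul_of_nonneg_left (abs_le.1 hq).2 (by positivity : 0 ≤ η * (2 * C))
      have h4 := mul_le_mul_of_nonneg_right hη2 (sq_nonneg ‖w‖)
      linarith
    refine (pow_le_pow_iff_left₀ (by positivity) (norm_nonneg _) two_ne_zero).1 (le_trans ?_ h2)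
    rw [mul_pow, div_pow, one_pow, div_mul_eq_mul_div, one_mul]
    exact div_le_div_of_nonneg_left (sq_nonneg _) (by linarith) (by nlinarith)
  -- the caps
  have hII : ∀ w, II fp x w = nrm fp x (fderiv ℝ (fun z => fderiv ℝ fp z w) x w) := fun w => rfl
  have hnrm : ∀ u : R4, (∀ w, ⟪u, fderiv ℝ fp x w⟫ = 0) → ∀ y, ⟪u, nrm fp x y⟫ = ⟪u, y⟫ :=
    fun u hu y => by
      rw [inner_nrm, nrm_self_of_orth fp x fun w => by rw [real_inner_comm]; exact hu w]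
  obtain ⟨hcII, hcn, hck⟩ := hcap ψ x hx
  have hlen : ∀ w, gc g ψ x 0 * w 0 ^ 2 + 2 * gc g ψ x 1 * w 0 * w 1 + gc g ψ x 2 * w 1 ^ 2 =
      bil (gc g ψ x) w w := fun w => by simp [bil]; ring
  simp only [hlen] at hcII hcn hck
  have hlen0 : ∀ w, 0 ≤ bil (gc g ψ x) w w := fun w => by
    rcases eq_or_ne w 0 with rfl | hw
    · simp [bil]
    · exact (bil_gc_pos g ψ x hw).le
  have hBlen : ∀ w, S.B * bil (gc g ψ x) w w ≤ |S.B| * C * ‖w‖ ^ 2 := fun w => by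
    calc S.B * bil (gc g ψ x) w w ≤ |S.B| * bil (gc g ψ x) w w :=
          mul_le_mul_of_nonneg_right (le_abs_self _) (hlen0 w)
      _ ≤ |S.B| * (C * ‖w‖ ^ 2) := mul_le_mul_of_nonneg_left (hbd.high w) (abs_nonneg _)
      _ = _ := by ring
  have hn1 : ‖n (ψ x)‖ = 1 := hfn.2.2.1 _
  have hm1 : ‖nm f n ψ x‖ = 1 := by rw [norm_eq_sqrt_real_inner, hmm, Real.sqrt_one]
  have hv : ‖v‖ ≤ C := hbd.vle
  refine ⟨hlow, ?_, ?_, fun u => ?_, ?_, fun u => ?_⟩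
  · have e : ⟪fderiv ℝ (fun z => fderiv ℝ fp z v) x v, n (ψ x)⟫ = ⟪n (ψ x), II fp x v⟫ := by
      rw [hII, hnrm _ fun w => (hTo w).2, real_inner_comm]
    rw [e, div_le_iff₀ hC0]
    calc S.κ = S.κ * 1 := (mul_one _).symm
      _ ≤ S.κ * (C * bil (gc g ψ x) v v) := mul_le_mul_of_nonneg_left hbd.len S.κ_pos.le
      _ = C * (S.κ * bil (gc g ψ x) v v) := by ring
      _ ≤ C * ⟪n (ψ x), II fp x v⟫ := mul_le_mul_of_nonneg_left hck hC0.le
      _ = _ := mul_comm _ _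
  · rw [real_inner_comm, ← hnrm _ fun w => (hTo w).1, ← hII]
    refine (abs_real_inner_le_norm _ _).trans ?_
    rw [hm1, one_mul]
    refine (hcII v).trans ((hBlen v).trans ?_)
    calc |S.B| * C * ‖v‖ ^ 2 ≤ |S.B| * C * C ^ 2 := by gcongr
      _ = _ := by ring
  · have h := tangential_bound hfp ((contDiff_gc' g ψ).sub ((contDiff_slackZ g S ψ).const_smul η))
      hev v u
    have hΦ : ‖fderiv ℝ (fun z => gc g ψ z - η • slackZ g S ψ z) x‖ ≤ 2 * C := by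
      have hd := ((contDiff_slackZ g S ψ).differentiable (by simp) x)
      rw [fderiv_fun_sub ((contDiff_gc' g ψ).differentiable (by simp) x) (hd.fun_const_smul η),
        fderiv_fun_const_smul hd]
      refine (norm_sub_le _ _).trans ?_
      rw [norm_smul, Real.norm_eq_abs, abs_of_pos hη]
      have hη3 : η ≤ 1 := hη1.trans (by
        rw [div_le_one (by positivity)]
        nlinarith)
      have := mul_le_mul hη3 hbd.dQ (norm_nonneg _) zero_le_one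
      linarith [hbd.dG]
    refine h.trans ?_
    calc 6 * ‖fderiv ℝ (fun z => gc g ψ z - η • slackZ g S ψ z) x‖ * ‖v‖ ^ 2 * ‖u‖
        ≤ 6 * (2 * C) * C ^ 2 * ‖u‖ := by gcongr
      _ = 24 * C ^ 4 * (1 / (2 * C) * ‖u‖) := by field_simp; ring
      _ ≤ 24 * C ^ 4 * ‖fderiv ℝ fp x u‖ := mul_le_mul_of_nonneg_left (hlow u) (by positivity)
  · refine (pow_le_pow_iff_left₀ (norm_nonneg _) (by positivity) two_ne_zero).1 ?_
    refine (hcn v).trans ?_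
    calc S.B ^ 2 * bil (gc g ψ x) v v ≤ S.B ^ 2 * (C * ‖v‖ ^ 2) :=
          mul_le_mul_of_nonneg_left (hbd.high v) (sq_nonneg _)
      _ ≤ S.B ^ 2 * (C * C ^ 2) := by gcongr
      _ ≤ (|S.B| * C ^ 2) ^ 2 := by
          rw [mul_pow, sq_abs]
          refine mul_le_mul_of_nonneg_left ?_ (sq_nonneg _)
          nlinarith [pow_le_pow_right₀ hC (show 3 ≤ 4 by norm_num)]
  · have hd := inner_deriv_zero (contDiff_nm hfn ψ) (contDiff_D hfp u)
      (fun z => ((nm_props hfn ψ z).2.2.2 u).1) x v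
    let β : E2 →L[ℝ] E2 →L[ℝ] ℝ :=
      (ContinuousLinearMap.compL ℝ E2 R4 ℝ (innerSL ℝ (nm f n ψ x))).comp
        (fderiv ℝ (fderiv ℝ fp) x)
    have hβ : ∀ a w, β a w = ⟪nm f n ψ x, fderiv ℝ (fun z => fderiv ℝ fp z w) x a⟫ := fun a w => by
      rw [D2_apply hfp]; rfl
    have hb := polar_bound (β := β) (fun a w => by rw [hβ, hβ, D2_symm hfp])
      (K := |S.B| * C) (fun w => by
        rw [hβ, ← hnrm _ fun a => (hTo a).1, ← hII]
        refine (abs_real_inner_le_norm _ _).trans ?_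
        rw [hm1, one_mul]
        exact (hcII w).trans (hBlen w)) v u
    rw [hβ] at hb
    rw [eq_neg_of_add_eq_zero_left hd, abs_neg]
    refine hb.trans ?_
    calc |S.B| * C * ‖v‖ * ‖u‖ ≤ |S.B| * C * C * ‖u‖ := by gcongr
      _ = 2 * |S.B| * C ^ 3 * (1 / (2 * C) * ‖u‖) := by field_simp
      _ ≤ 2 * |S.B| * C ^ 3 * ‖fderiv ℝ fp x u‖ :=
          mul_le_mul_of_nonneg_left (hlow u) (by positivity)

/-- The error terms of the second derivative at a point near the critical set. -/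
lemma err_bound {X Y : R4} {n m w : R4} {bx dbv ddH Ld C s t μ K lowsz : ℝ} {dm dn E : R4}
    (hn : ‖n‖ = 1) (hm : ‖m‖ = 1) (hμ : |μ| ≤ 1) (hC : 1 ≤ C) (hs : 0 ≤ s)
    (hX : X = bx • dm + dbv • m) (hY : Y = (-(μ / 4) * bx) • dn + (-(μ / 4) * dbv) • n)
    (hb : |bx| ≤ s * C) (hdb : |dbv| ≤ s * C ^ 2) (hddH : |ddH| ≤ C) (hLd : |Ld| ≤ C ^ 2)
    (hK : 0 ≤ K) (hdm : |⟪dm, w⟫| ≤ K * ‖w‖) (hdn : ‖dn‖ ≤ K) (hE : ‖E‖ ≤ lowsz) :
    |⟪(bx * ddH) • B1 μ t n m + (2 * Ld) • (Real.cos t • X + (-2 * Real.sin (2 * t)) • Y) + E, w⟫| ≤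
      (s * (2 * C ^ 2 + 6 * C ^ 2 * (K * C + C ^ 2)) + lowsz) * ‖w‖ := by
  have hw := norm_nonneg w
  have hC0 : 0 ≤ C := by linarith
  have h0 : |⟪B1 μ t n m, w⟫| ≤ 2 * ‖w‖ := (abs_real_inner_le_norm _ _).trans
    (mul_le_mul_of_nonneg_right (norm_B1_le hn hm hμ t) hw)
  have h1 : |⟪X, w⟫| ≤ (s * C * K + s * C ^ 2) * ‖w‖ := by
    rw [hX, inner_add_left, real_inner_smul_left, real_inner_smul_left]
    refine (abs_add_le _ _).trans ?_
    rw [abs_mul, abs_mul]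
    have a2 := (abs_real_inner_le_norm m w).trans_eq (by rw [hm, one_mul])
    have b1 := mul_le_mul hb hdm (abs_nonneg _) (by positivity)
    have b2 := mul_le_mul hdb a2 (abs_nonneg _) (by positivity)
    linarith
  have hY' : ‖Y‖ ≤ s * C * K + s * C ^ 2 := by
    rw [hY]
    refine (norm_add_le _ _).trans ?_
    rw [norm_smul, norm_smul, hn, mul_one, Real.norm_eq_abs, Real.norm_eq_abs, abs_mul, abs_mul]
    have hμ4 : |-(μ / 4)| ≤ 1 := by rw [abs_neg, abs_div]; norm_num; linarith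
    have b1 := mul_le_mul (mul_le_mul hμ4 hb (abs_nonneg _) zero_le_one) hdn (norm_nonneg _)
      (by positivity)
    have b2 := mul_le_mul hμ4 hdb (abs_nonneg _) zero_le_one
    linarith
  have h2 := (abs_real_inner_le_norm Y w).trans (mul_le_mul_of_nonneg_right hY' hw)
  have h3 := (abs_real_inner_le_norm E w).trans (mul_le_mul_of_nonneg_right hE hw)
  simp only [inner_add_left, real_inner_smul_left]
  refine (abs_add_le _ _).trans ?_
  refine le_trans (add_le_add ((abs_add_le _ _).trans (add_le_add ?_ ?_)) h3) (le_of_eq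
    (show s * C * C * (2 * ‖w‖) + 2 * C ^ 2 * (3 * ((s * C * K + s * C ^ 2) * ‖w‖)) + lowsz * ‖w‖ =
      _ by ring))
  · rw [abs_mul, abs_mul]
    exact mul_le_mul (mul_le_mul hb hddH (abs_nonneg _) (by positivity)) h0 (abs_nonneg _)
      (by positivity)
  · rw [abs_mul, abs_mul, abs_two]
    refine mul_le_mul (by linarith) ((abs_add_le _ _).trans ?_) (abs_nonneg _) (by positivity)
    rw [abs_mul, abs_mul]
    have a1 := mul_le_mul (Real.abs_cos_le_one t) h1 (abs_nonneg _) zero_le_one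
    have a2 : |-2 * Real.sin (2 * t)| ≤ 2 := by
      rw [abs_mul, abs_neg, abs_two]
      linarith [Real.abs_sin_le_one (2 * t)]
    have a3 := mul_le_mul a2 h2 (abs_nonneg _) zero_le_two
    linarith

end Vale.Agent.P205F.Crest
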