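import Vale.Agent.P205F.Crest.Bounds

/-!
# P205, the crest: what survives a small perturbation

Goodness, immersion and `II(e,e) ≠ 0` are open conditions on finite jets, so they hold on a compact
set for all small values of the parameters.
-/

namespace Vale.Agent.P205F.Crest

open scoped Manifold ContDiff RealInnerProductSpace Topology
open Set Filter Function

/-! ### The plane -/

/-- `Df` extended by the second derivative along `v`: injective iff `f` is immersed and
`II(v,v) ≠ 0`. -/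
noncomputable def ext2 (u : E2 → R4) (x v : E2) : E2 × ℝ →L[ℝ] R4 :=
  (fderiv ℝ u x).coprod
    (ContinuousLinearMap.toSpanSingleton ℝ (fderiv ℝ (fun z => fderiv ℝ u z v) x v))

lemma ext2_injective {u : E2 → R4} {x v : E2} :
    Injective (ext2 u x v) ↔ Injective (fderiv ℝ u x) ∧ II u x v ≠ 0 := by
  constructor
  · intro h
    refine ⟨fun a b hab => ?_, fun h0 => ?_⟩
    · exact congrArg Prod.fst (h (a₁ := (a, 0)) (a₂ := (b, 0)) (by simp [ext2, hab]))
    · obtain ⟨w, hw⟩ := exists_range_of_nrm_eq_zero h0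
      have := congrArg Prod.snd (h (a₁ := (w, 0)) (a₂ := (0, 1)) (by simp [ext2, hw]))
      simp at this
  · rintro ⟨hi, hII⟩
    rw [injective_iff_map_eq_zero]
    rintro ⟨a, t⟩ h
    simp [ext2] at h
    have h2 := congrArg (nrmL u x) h
    rw [map_add, map_smul, map_zero, nrmL_apply, nrm_apply_range, zero_add] at h2
    have ht : t = 0 := (smul_eq_zero.1 h2).resolve_right hII
    rw [ht, zero_smul, add_zero] at h
    exact Prod.ext (hi (h.trans (map_zero _).symm)) ht

/-! ### Families -/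

variable {P : Type*} [NormedAddCommGroup P] [NormedSpace ℝ P]

lemma contDiff_partial {X : Type*} [NormedAddCommGroup X] [NormedSpace ℝ X] {G : P → E2 → X}
    (hG : ContDiff ℝ ∞ (uncurry G)) :
    ContDiff ℝ ∞ fun q : P × E2 => fderiv ℝ (G q.1) q.2 := by
  refine ContDiff.fderiv (m := ∞) (f := fun q : P × E2 => G q.1) ?_ contDiff_snd (by simp)
  exact hG.comp ((contDiff_fst.comp contDiff_fst).prodMk contDiff_snd)

lemma contDiff_partial_iter {G : P → E2 → R4} (hG : ContDiff ℝ ∞ (uncurry G)) :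
    ∀ k : ℕ, ContDiff ℝ ∞ fun q : P × E2 => iteratedFDeriv ℝ k (G q.1) q.2 := by
  intro k
  induction k with
  | zero =>
    simp only [iteratedFDeriv_zero_eq_comp, comp_apply]
    exact (LinearIsometryEquiv.contDiff _).comp hG
  | succ k ih =>
    have h := contDiff_partial (G := fun l z => iteratedFDeriv ℝ k (G l) z) ih
    simp only [iteratedFDeriv_succ_eq_comp_left, comp_apply]
    exact (LinearIsometryEquiv.contDiff _).comp h

lemma continuous_ext2 {G : P → E2 → R4} (hG : ContDiff ℝ ∞ (uncurry G)) {v : E2 → E2}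
    (hv : ContDiff ℝ ∞ v) : Continuous fun q : P × E2 => ext2 (G q.1) q.2 (v q.2) := by
  have h1 := contDiff_partial hG
  have h2 := contDiff_partial (G := fun l z => fderiv ℝ (G l) z) h1
  have hv' : ContDiff ℝ ∞ fun q : P × E2 => v q.2 := hv.comp contDiff_snd
  have e : (fun q : P × E2 => ext2 (G q.1) q.2 (v q.2)) = fun q =>
      (fderiv ℝ (G q.1) q.2).comp (ContinuousLinearMap.fst ℝ E2 ℝ) +
        (ContinuousLinearMap.toSpanSingletonCLE (𝕜 := ℝ) (E := R4)
          (fderiv ℝ (fderiv ℝ (G q.1)) q.2 (v q.2) (v q.2))).comp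
            (ContinuousLinearMap.snd ℝ E2 ℝ) := by
    funext q
    have hq : ContDiff ℝ ∞ (G q.1) := hG.comp (contDiff_const.prodMk contDiff_id)
    simp only [← D2_apply hq]
    refine ContinuousLinearMap.ext fun a => ?_
    simp [ext2]
  rw [e]
  exact (h1.continuous.clm_comp continuous_const).add
    ((((ContinuousLinearMap.toSpanSingletonCLE (𝕜 := ℝ) (E := R4)).continuous.comp
      (((h2.clm_apply hv').clm_apply hv').continuous)).clm_comp continuous_const))

/-! ### The surface -/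

variable {M : Type*} [TopologicalSpace M] [ChartedSpace E2 M]

lemma nhds_prod_chart (ψ : Chart M) (l : P) (x : E2) :
    𝓝 (l, ψ.toFun x) = Filter.map (Prod.map id ψ.toFun) (𝓝 (l, x)) := by
  rw [nhds_prod_eq, nhds_prod_eq, ← ψ.open_emb.map_nhds_eq x, ← Filter.prod_map_map_eq',
    Filter.map_id]

/-- A smooth family of maps on the surface. -/
def SmoothFam (G : P → M → R4) : Prop :=
  ∀ ψ : Chart M, ContDiff ℝ ∞ (uncurry fun l z => G l (ψ z))

lemma smoothFam_affine {F : M → R4} {d : ℕ} {Φ : Fin d → M → R4}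
    (hF : ContMDiff (𝓡 2) (𝓡 4) ∞ F) (hΦ : ∀ k, ContMDiff (𝓡 2) (𝓡 4) ∞ (Φ k)) :
    SmoothFam fun (l : Fin d → ℝ) q => F q + ∑ k, l k • Φ k q := by
  intro ψ
  exact ((ψ.contDiff_comp hF).comp contDiff_snd).add (ContDiff.sum fun k _ =>
    (((contDiff_apply ℝ ℝ k).comp contDiff_fst).smul ((ψ.contDiff_comp (hΦ k)).comp contDiff_snd)))

lemma SmoothFam.smooth [IsManifold (𝓡 2) ∞ M] {G : P → M → R4} (hG : SmoothFam G) (l : P) :
    ContMDiff (𝓡 2) (𝓡 4) ∞ (G l) :=
  Chart.contMDiff_of_forall fun ψ => (hG ψ).comp (contDiff_const.prodMk contDiff_id)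

lemma smoothFam_const {F : M → R4} (hF : ContMDiff (𝓡 2) (𝓡 4) ∞ F) :
    SmoothFam fun (_ : ℝ) => F :=
  fun ψ => (ψ.contDiff_comp hF).comp contDiff_snd

lemma eventually_gdAt {G : P → M → R4} (hG : SmoothFam G) {l : P} {p : M} (h : GdAt (G l) p) :
    ∀ᶠ q in 𝓝 (l, p), GdAt (G q.1) q.2 := by
  obtain ⟨I, ψ, x, rfl, hx⟩ := h
  rw [nhds_prod_chart ψ, eventually_map]
  have hc : Continuous fun q : P × E2 => I.den (jet I.N (fun z => G q.1 (ψ z)) q.2) :=
    I.den_temperate.1.continuous.comp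
      (continuous_pi fun k => (contDiff_partial_iter (hG ψ) (k : ℕ)).continuous)
  filter_upwards [(isOpen_lt continuous_const hc).mem_nhds (x := (l, x)) hx] with q hq
  exact ⟨I, ψ, q.2, rfl, hq⟩

variable [IsManifold (𝓡 2) ∞ M] (g : Metric M) (h : Twisted M)

/-- `II(e,e) ≠ 0` at a point, for the kernel vector `e`. -/
def Abs (f : M → R4) (p : M) : Prop :=
  ∀ (φ : Chart M) x, φ x = p → II (fun z => f (φ z)) x (h.efin g φ x) ≠ 0

variable {g h}

lemma abs_of_chart {f : M → R4} (hf : ContMDiff (𝓡 2) (𝓡 4) ∞ f) {ψ : Chart M} {y : E2}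
    (hne : II (fun z => f (ψ z)) y (h.efin g ψ y) ≠ 0) : Abs g h f (ψ y) := by
  intro φ x hx
  have hr : φ.toFun x ∈ range ψ.toFun := ⟨y, hx.symm⟩
  rw [II_change ψ φ hf hr, h.efin_change g ψ φ hr, II_smul (ψ.contDiff_comp hf),
    Chart.trans_eq hx]
  exact smul_ne_zero
    (pow_ne_zero _ (det_ne_zero_of_injective (ψ.trans_fderiv_injective φ hr))) hne

lemma injective_of_chart {f : M → R4} (hf : ContMDiff (𝓡 2) (𝓡 4) ∞ f) {ψ : Chart M} {y : E2}
    (hi : Injective (fderiv ℝ (fun z => f (ψ z)) y)) (φ : Chart M) (x : E2) (hx : φ x = ψ y) :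
    Injective (fderiv ℝ (fun z => f (φ z)) x) := by
  have hr : φ.toFun x ∈ range ψ.toFun := ⟨y, hx.symm⟩
  rw [fderiv_change ψ φ hf hr, Chart.trans_eq hx]
  exact hi.comp (ψ.trans_fderiv_injective φ hr)

/-- Immersed at a point. -/
def ImmAt (f : M → R4) (p : M) : Prop :=
  ∀ (φ : Chart M) x, φ x = p → Injective (fderiv ℝ (fun z => f (φ z)) x)

lemma eventually_immAt {G : P → M → R4} (hG : SmoothFam G) {l : P} {p : M}
    (hp : ImmAt (G l) p) : ∀ᶠ q in 𝓝 (l, p), ImmAt (G q.1) q.2 := by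
  obtain ⟨ψ, x, rfl, -⟩ := Chart.exists_mem (M := M) (Filter.univ_mem (f := 𝓝 p))
  rw [nhds_prod_chart ψ, eventually_map]
  filter_upwards [(ContinuousLinearMap.isOpen_injective.preimage
    (contDiff_partial (hG ψ)).continuous).mem_nhds (x := (l, x)) (hp ψ x rfl)] with q hq
  exact injective_of_chart (hG.smooth q.1) hq

lemma eventually_abs {G : P → M → R4} (hG : SmoothFam G) {l : P} {p : M} (hi : ImmAt (G l) p)
    (hp : Abs g h (G l) p) : ∀ᶠ q in 𝓝 (l, p), Abs g h (G q.1) q.2 := by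
  obtain ⟨ψ, x, rfl, -⟩ := Chart.exists_mem (M := M) (Filter.univ_mem (f := 𝓝 p))
  rw [nhds_prod_chart ψ, eventually_map]
  filter_upwards [(ContinuousLinearMap.isOpen_injective.preimage
    (continuous_ext2 (hG ψ) (contDiff_efin g h ψ))).mem_nhds (x := (l, x))
      (ext2_injective.2 ⟨hi ψ x rfl, hp ψ x rfl⟩)] with q hq
  exact abs_of_chart (hG.smooth q.1) (ext2_injective.1 hq).2

lemma isOpen_abs {f : M → R4} (hf : ContMDiff (𝓡 2) (𝓡 4) ∞ f)
    (hi : ∀ φ : Chart M, IsImm fun z => f (φ z)) : IsOpen {p | Abs g h f p} :=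
  isOpen_iff_mem_nhds.2 fun p hp =>
    (tendsto_const_nhds.prodMk_nhds tendsto_id).eventually
      (eventually_abs (smoothFam_const hf) (l := (0 : ℝ)) (fun φ x _ => hi φ x) hp)

/-- Nearby parameters keep everything on compact sets. -/
theorem exists_stable [CompactSpace M] {G : P → M → R4} (hG : SmoothFam G) {l : P}
    (hi : ∀ p, ImmAt (G l) p) {A B : Set M} (hA : IsCompact A) (hgd : ∀ p ∈ A, GdAt (G l) p)
    (hB : IsCompact B) (habs : ∀ p ∈ B, Abs g h (G l) p) :
    ∀ᶠ k in 𝓝 l, (∀ φ : Chart M, IsImm fun z => G k (φ z)) ∧ (∀ p ∈ A, GdAt (G k) p) ∧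
      ∀ p ∈ B, Abs g h (G k) p := by
  filter_upwards [isCompact_univ.eventually_forall_of_forall_eventually
      (P := fun k p => ImmAt (G k) p) fun p _ => eventually_immAt hG (hi p),
    hA.eventually_forall_of_forall_eventually (P := fun k p => GdAt (G k) p)
      fun p hp => eventually_gdAt hG (hgd p hp),
    hB.eventually_forall_of_forall_eventually (P := fun k p => Abs g h (G k) p)
      fun p hp => eventually_abs hG (hi p) (habs p hp)] with k h1 h2 h3
  exact ⟨fun φ x => h1 _ (mem_univ _) φ x rfl, h2, h3⟩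

omit [IsManifold (𝓡 2) ∞ M] in
/-- The metric moves little. -/
lemma eventually_met {G : P → M → R4} (hG : SmoothFam G) (l : P) (ψ : Chart M) {K : Set E2}
    (hK : IsCompact K) {δ : ℝ} (hδ : 0 < δ) :
    ∀ᶠ k in 𝓝 l, ∀ x ∈ K,
      ‖met (fun z => G k (ψ z)) x - met (fun z => G l (ψ z)) x‖ < δ := by
  have hd := fun i : Fin 2 => ((contDiff_partial (hG ψ)).clm_apply
    (contDiff_const (c := ev i))).continuous
  have hm : Continuous fun q : P × E2 => met (fun z => G q.1 (ψ z)) q.2 :=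
    continuous_pi fun i => by
      fin_cases i
      · exact (hd 0).inner (hd 0)
      · exact (hd 0).inner (hd 1)
      · exact (hd 1).inner (hd 1)
  have hc : Continuous fun q : P × E2 =>
      ‖met (fun z => G q.1 (ψ z)) q.2 - met (fun z => G l (ψ z)) q.2‖ :=
    (hm.sub (hm.comp (continuous_const.prodMk continuous_snd))).norm
  exact hK.eventually_forall_of_forall_eventually fun x _ =>
    (isOpen_lt hc continuous_const).mem_nhds (by simpa using hδ)

end Vale.Agent.P205F.Crest
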